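import Vale.Agent.P284.H286.Slice
import Vale.Agent.P284.H286.LineB
import Vale.Agent.P284.H500.Tube

/-!
# P284 (helper286), module EXT (A): quotients bounded near good points are holomorphic

`thmA`: Theorem A from the tube lemma (T); `sliceStmt : SliceStmt`, `thmAStmt : ThmAStmt`
(statements of `H500/ExtS`).
-/

open Set Filter Metric Topology MeasureTheory Vale.Agent.P272.K Vale.Agent.P284.H500
open scoped NNReal ENNReal

noncomputable section

namespace Vale.Agent.P284.H286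

/-- one minor which does not vanish identically -/
lemma exists_minor {E : Type*} [NormedAddCommGroup E] [NormedSpace ℂ E] [FiniteDimensional ℂ E]
    {q : ℕ} {t : E → Cm q} {x₀ : E} (h : ∃ᶠ x in 𝓝 x₀, Om t x ≠ 0) :
    ∃ e : Fin q → E, ∃ᶠ x in 𝓝 x₀, Om t x e ≠ 0 := by
  by_contra hcon
  push Not at hcon
  set b := Module.finBasis ℂ E with hb
  have h1 : ∀ᶠ x in 𝓝 x₀, ∀ σ : Fin q → Fin (Module.finrank ℂ E), Om t x (fun j => b (σ j)) = 0 := by
    rw [eventually_all]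
    exact fun σ => hcon _
  refine h (h1.mono fun x hx => ?_)
  rw [not_not]
  have h2 : (OmC t x).toAlternatingMap.toMultilinearMap = 0 := by
    refine Module.Basis.ext_multilinear (fun _ => b) fun σ => ?_
    have := hx σ
    rw [← OmC_apply] at this
    exact this
  funext ξ
  rw [← OmC_apply]
  exact congrArg (fun m : MultilinearMap ℂ (fun _ : Fin q => E) ℂ => m ξ) h2

/-- a common point where two analytic functions do not vanish -/
lemma exists_both {E : Type*} [NormedAddCommGroup E] [NormedSpace ℂ E] {f h : E → ℂ} {x₀ : E}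
    {r : ℝ} (hr : 0 < r) (hf : ∀ x ∈ ball x₀ r, AnalyticAt ℂ f x)
    (hh : ∀ x ∈ ball x₀ r, AnalyticAt ℂ h x)
    (hf0 : ∃ᶠ x in 𝓝 x₀, f x ≠ 0) (hh0 : ∃ᶠ x in 𝓝 x₀, h x ≠ 0) :
    ∃ y ∈ ball x₀ r, f y ≠ 0 ∧ h y ≠ 0 := by
  obtain ⟨y, hy, hyr⟩ := (hh0.and_eventually (ball_mem_nhds x₀ hr)).exists
  by_contra hcon
  push Not at hcon
  have h1 : ∀ᶠ z in 𝓝 y, h z ≠ 0 := (hh y hyr).continuousAt.eventually_ne hy
  have h2 : f =ᶠ[𝓝 y] 0 := by
    filter_upwards [h1, isOpen_ball.mem_nhds hyr] with z h3 h4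
    by_contra h5
    exact h3 (hcon z h4 h5)
  have hfn : AnalyticOnNhd ℂ f (ball x₀ r) := hf
  have h3 := hfn.eqOn_zero_of_preconnected_of_eventuallyEq_zero (convex_ball x₀ r).isPreconnected
    hyr h2
  refine hf0 ?_
  filter_upwards [ball_mem_nhds x₀ hr] with z hz
  rw [not_not]
  exact h3 hz

/-- the restriction of a function to a line through a point where it does not vanish -/
lemma line_ne {E : Type*} [NormedAddCommGroup E] [NormedSpace ℂ E] {f : E → ℂ} {x₀ : E}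
    {r : ℝ} (hf : ∀ x ∈ ball x₀ r, AnalyticAt ℂ f x) {z v : E} {t' : ℂ}
    (h1 : z + t' • v ∈ ball x₀ r) (h2 : f (z + t' • v) ≠ 0) {t : ℂ} (ht : z + t • v ∈ ball x₀ r) :
    ∀ᶠ s in 𝓝[≠] t, f (z + s • v) ≠ 0 := by
  set S : Set ℂ := {s | z + s • v ∈ ball x₀ r} with hS
  have hSc : Convex ℝ S := by
    have h3 : S = (fun s : ℂ => z + s • v) ⁻¹' (ball x₀ r) := rfl
    intro a ha b hb p q hp hq hpq
    have ha' : z + a • v ∈ ball x₀ r := ha
    have hb' : z + b • v ∈ ball x₀ r := hb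
    have h4 := (convex_ball x₀ r) ha' hb' hp hq hpq
    show z + (p • a + q • b) • v ∈ ball x₀ r
    convert h4 using 1
    have hz : z = p • z + q • z := by rw [← add_smul, hpq, one_smul]
    conv_lhs => rw [hz]
    simp only [smul_add, add_smul, smul_assoc]
    abel
  have hSa : AnalyticOnNhd ℂ (fun s : ℂ => f (z + s • v)) S := by
    intro s hs
    refine AnalyticAt.comp (g := f) (f := fun s : ℂ => z + s • v) (hf _ hs) ?_
    fun_prop
  rcases (hSa t ht).eventually_eq_zero_or_eventually_ne_zero with h3 | h3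
  · exact absurd (hSa.eqOn_zero_of_preconnected_of_eventuallyEq_zero hSc.isPreconnected ht h3 h1) h2
  · exact h3

/-- **Theorem A.** -/
theorem thmA.{v, w, w'} (hT : TubeStmt.{v, w}) {E : Type v} [NormedAddCommGroup E]
    [NormedSpace ℂ E] [FiniteDimensional ℂ E] [MeasurableSpace E] [BorelSpace E] (μ : Measure E)
    [μ.IsAddHaarMeasure] {W : Type w} [NormedAddCommGroup W] [NormedSpace ℂ W] [CompleteSpace W]
    {q : ℕ} {t : E → Cm q} {S : E → E [⋀^Fin (q + 1)]→L[ℂ] W} {U : Set E}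
    {Z : Type w'} [NormedAddCommGroup Z] [NormedSpace ℂ Z] [CompleteSpace Z]
    {h : E → ℂ} {φ : E → Z} {x₀ : E} (hU : IsOpen U) (ht : ∀ x ∈ U, AnalyticAt ℂ t x)
    (hS : ∀ x ∈ U, AnalyticAt ℂ S x) (hrel : RelW t S U) (htube : Tube μ t S U)
    (hh : ∀ x ∈ U, AnalyticAt ℂ h x) (hφ : ∀ x ∈ U, AnalyticAt ℂ φ x) (hx₀ : x₀ ∈ U)
    (hh0 : ∃ᶠ x in 𝓝 x₀, h x ≠ 0) (ht0 : ∃ᶠ x in 𝓝 x₀, Om t x ≠ 0)
    (hgood : ∀ x ∈ U, Good t S x → ∃ C : ℝ, ∀ᶠ y in 𝓝 x, ‖φ y‖ ≤ C * ‖h y‖) :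
    ∃ g : E → Z, AnalyticAt ℂ g x₀ ∧ ∀ᶠ x in 𝓝 x₀, φ x = h x • g x := by
  obtain ⟨e, he⟩ := exists_minor ht0
  obtain ⟨r, hr, hrU⟩ := Metric.isOpen_iff.1 hU x₀ hx₀
  have hfa : ∀ x ∈ ball x₀ r, AnalyticAt ℂ (fun x => Om t x e) x := fun x hx =>
    analyticAt_Om (ht x (hrU hx)) e
  have hha : ∀ x ∈ ball x₀ r, AnalyticAt ℂ h x := fun x hx => hh x (hrU hx)
  obtain ⟨y, hyr, hy1, hy2⟩ := exists_both hr hfa hha he hh0
  set v : E := y - x₀ with hv
  have hyv : x₀ + (1 : ℂ) • v = y := by rw [one_smul, hv, add_sub_cancel]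
  have h0v : x₀ + (0 : ℂ) • v ∈ ball x₀ r := by
    rw [zero_smul, add_zero]
    exact mem_ball_self hr
  have hl1 : ∀ᶠ s in 𝓝[≠] (0 : ℂ), Om t (x₀ + s • v) e ≠ 0 :=
    line_ne hfa (t' := 1) (by rw [hyv]; exact hyr) (by rw [hyv]; exact hy1) h0v
  have hl2 : ∀ᶠ s in 𝓝[≠] (0 : ℂ), h (x₀ + s • v) ≠ 0 :=
    line_ne hha (t' := 1) (by rw [hyv]; exact hyr) (by rw [hyv]; exact hy2) h0v
  have hae := slice_ae hT μ (e := e) (v := v) hU ht hS hrel htube
  have hDd : Dense {x | ∀ z : ℂ, x + z • v ∈ U →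
      (∃ᶠ s in 𝓝 (0 : ℂ), Om t (x + z • v + s • v) e ≠ 0) → Good t S (x + z • v)} :=
    Measure.dense_of_ae hae
  obtain ⟨ρ, hρ, hρr, ψ, hψ, hψe⟩ := line_extB (ω := h) (k := fun x => Om t x e * h x) (Φ := φ) hr
    (u := v) (fun x hx => (hha x hx).differentiableAt.differentiableWithinAt)
    (fun x hx => ((hfa x hx).continuousAt.mul (hha x hx).continuousAt).continuousWithinAt)
    (fun z _ hz => right_ne_zero_of_mul hz)
    (fun x hx => (hφ x (hrU hx)).differentiableAt.differentiableWithinAt)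
    (by filter_upwards [hl1, hl2] with s h1 h2 using mul_ne_zero h1 h2) hDd (by
      rintro z hz ⟨t', ht', ht'0⟩ s hs
      have h1 : ∀ᶠ τ in 𝓝[≠] s, Om t (z + τ • v) e ≠ 0 :=
        line_ne hfa ht' (left_ne_zero_of_mul ht'0) hs
      have h2 : ∃ᶠ τ in 𝓝 (0 : ℂ), Om t (z + s • v + τ • v) e ≠ 0 := by
        intro h3
        have h4 : Tendsto (fun τ : ℂ => τ - s) (𝓝 s) (𝓝 0) := by
          have : ContinuousAt (fun τ : ℂ => τ - s) s := by fun_prop
          have h5 := this.tendsto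
          rwa [sub_self] at h5
        have h5 := (h4.mono_left nhdsWithin_le_nhds : Tendsto _ (𝓝[≠] s) _).eventually h3
        obtain ⟨τ, h6, h7⟩ := (h1.and h5).exists
        rw [not_not] at h7
        refine h6 ?_
        rw [← h7]
        congr 1
        rw [add_assoc, ← add_smul, add_sub_cancel]
      obtain ⟨C, hC⟩ := hgood _ (hrU hs) (hz s (hrU hs) h2)
      refine ⟨C, ?_⟩
      have h3 : Tendsto (fun τ : ℂ => z + τ • v) (𝓝[≠] s) (𝓝 (z + s • v)) := by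
        have : ContinuousAt (fun τ : ℂ => z + τ • v) s := by fun_prop
        exact this.tendsto.mono_left nhdsWithin_le_nhds
      exact h3.eventually hC)
  refine ⟨ψ, Vale.Agent.P268.analyticAt_of_differentiableOn isOpen_ball hψ (mem_ball_self hρ), ?_⟩
  filter_upwards [ball_mem_nhds x₀ hρ] with z hz using (hψe z hz).symm

/-- (A) from (T), in the form of `H500/ExtS` -/
theorem thmAStmt_of.{v, w, w'} (hT : TubeStmt.{v, w}) : ThmAStmt.{v, w, w'} := by
  intro E _ _ _ _ _ μ _ W _ _ _ q t S U Z _ _ _ h φ x₀ hU ht hS hrel htube hh hφ hx₀ hh0 ht0 hg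
  exact thmA hT μ hU ht hS hrel htube hh hφ
    hx₀ hh0 ht0 hg

/-- **(G)** -/
theorem sliceStmt.{v, w} : SliceStmt.{v, w} := sliceStmt_of tubeStmt

/-- **(A)** -/
theorem thmAStmt.{v, w, w'} : ThmAStmt.{v, w, w'} := thmAStmt_of tubeStmt

end Vale.Agent.P284.H286
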