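import Mathlib.Analysis.Complex.Basic
import Mathlib.Analysis.Calculus.InverseFunctionTheorem.ContDiff
import Mathlib.Analysis.Calculus.FDeriv.Symmetric
import Mathlib.Analysis.Calculus.MeanValue
import Mathlib.Analysis.Analytic.Uniqueness

/-!
# P284 (helper286): analytic inverse function theorem
-/

open scoped Topology ContDiff
open Filter Metric Set

noncomputable section

namespace Vale.Agent.P284.H286

variable {B : Type*} [NormedAddCommGroup B] [NormedSpace ℂ B]

/-- local inverse of `x ↦ (f x, π x)` -/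
theorem exists_psi {V : Type*} [NormedAddCommGroup V] [NormedSpace ℂ V] [CompleteSpace V] {B' : Type*}
    [NormedAddCommGroup B'] [NormedSpace ℂ B'] [CompleteSpace B'] (f : V → B') (π : V →L[ℂ] B) (x₀ : V)
    (hf : AnalyticAt ℂ f x₀) (T : V ≃L[ℂ] B' × B) (hT : ∀ v, T v = (fderiv ℂ f x₀ v, π v)) :
    ∃ Ψ : B' × B → V, ContDiffAt ℂ ω Ψ (f x₀, π x₀) ∧ Ψ (f x₀, π x₀) = x₀ ∧
      (∀ᶠ x in 𝓝 x₀, Ψ (f x, π x) = x) ∧
      (∀ᶠ z in 𝓝 ((f x₀, π x₀) : B' × B), (f (Ψ z), π (Ψ z)) = z) := by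
  set G : V → B' × B := fun z => (f z, π z) with hGdef
  have hG : ContDiffAt ℂ ω G x₀ := hf.contDiffAt.prodMk π.contDiff.contDiffAt
  have hG' : HasFDerivAt G (T : V →L[ℂ] B' × B) x₀ := by
    have h1 : HasFDerivAt G ((fderiv ℂ f x₀).prod π) x₀ :=
      hf.differentiableAt.hasFDerivAt.prodMk π.hasFDerivAt
    have h2 : (T : V →L[ℂ] B' × B) = (fderiv ℂ f x₀).prod π := by
      ext1 v
      exact hT v
    rw [h2]
    exact h1
  have hn : (ω : WithTop ℕ∞) ≠ 0 := by simp
  set Q := hG.toOpenPartialHomeomorph G hG' hn with hQ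
  have hQG : ∀ x, Q x = G x := fun x => rfl
  have hQs : x₀ ∈ Q.source := ContDiffAt.mem_toOpenPartialHomeomorph_source hG hG' hn
  have hQt : G x₀ ∈ Q.target := ContDiffAt.image_mem_toOpenPartialHomeomorph_target hG hG' hn
  refine ⟨Q.symm, hG.to_localInverse hG' hn, Q.left_inv hQs, ?_, ?_⟩
  · filter_upwards [Q.open_source.mem_nhds hQs] with x hx
    exact Q.left_inv hx
  · filter_upwards [Q.open_target.mem_nhds hQt] with z hz
    exact Q.right_inv hz

end Vale.Agent.P284.H286
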