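import Vale.Agent.P284.H625.NS.Spec
import Vale.Agent.P284.H286.Psi
import Mathlib.Analysis.Calculus.InverseFunctionTheorem.ContDiff
import Mathlib.Analysis.Calculus.FDeriv.Symmetric
import Mathlib.Analysis.Calculus.MeanValue
import Mathlib.Analysis.Analytic.Uniqueness
import Mathlib.LinearAlgebra.Matrix.Adjugate

/-!
# P284 (helper286), module NS (c): local flow along the fibres of a submersion
-/

open scoped Topology ContDiff
open Filter Metric Set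

noncomputable section

namespace Vale.Agent.P284.H286

open Vale.Agent.P272.K Vale.Agent.P284.H625

section gen

variable {A B H : Type*} [NormedAddCommGroup A] [NormedSpace ℂ A] [NormedAddCommGroup B]
  [NormedSpace ℂ B] [NormedAddCommGroup H] [NormedSpace ℂ H]

omit [NormedSpace ℂ A] in
/-- a function whose partial derivative in the second variable vanishes -/
lemma const_snd {G : A × B → H} {a₀ : A} {b₀ : B}
    (h : ∀ᶠ p in 𝓝 ((a₀, b₀) : A × B), HasFDerivAt (fun b => G (p.1, b)) (0 : B →L[ℂ] H) p.2) :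
    ∀ᶠ p in 𝓝 ((a₀, b₀) : A × B), G p = G (p.1, b₀) := by
  obtain ⟨ρ, hρ, hball⟩ := Metric.eventually_nhds_iff_ball.1 h
  refine Metric.eventually_nhds_iff_ball.2 ⟨ρ, hρ, fun p hp => ?_⟩
  have hp' : p.1 ∈ ball a₀ ρ ∧ p.2 ∈ ball b₀ ρ := by
    rw [← ball_prod_same] at hp
    exact hp
  have h1 : ∀ b ∈ ball b₀ ρ, HasFDerivAt (fun b => G (p.1, b)) (0 : B →L[ℂ] H) b := by
    intro b hb
    refine hball (p.1, b) ?_
    rw [← ball_prod_same]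
    exact ⟨hp'.1, hb⟩
  have h2 := (convex_ball b₀ ρ).is_const_of_fderivWithin_eq_zero (𝕜 := ℂ)
    (f := fun b => G (p.1, b)) (fun b hb => (h1 b hb).differentiableAt.differentiableWithinAt)
    (fun b hb => by
      rw [fderivWithin_of_isOpen isOpen_ball hb, (h1 b hb).fderiv]) hp'.2 (mem_ball_self hρ)
  exact h2

/-- The flow `Φ` along the fibres of `f` and the frame `Z` of the fibres. -/
structure Fl {V B' : Type*} [NormedAddCommGroup V] [NormedSpace ℂ V] [NormedAddCommGroup B']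
    [NormedSpace ℂ B'] (f : V → B') (π : V →L[ℂ] B) (x₀ : V) (Φ : V × B → V) (Z : V → B →L[ℂ] V)
    (Y : V → B' →L[ℂ] V) : Prop where
  an : ContDiffAt ℂ ω Φ (x₀, 0)
  anZ : ContDiffAt ℂ ω Z x₀
  base : Φ (x₀, 0) = x₀
  zero : ∀ᶠ x in 𝓝 x₀, Φ (x, 0) = x
  fΦ : ∀ᶠ p in 𝓝 ((x₀, 0) : V × B), f (Φ p) = f p.1
  πΦ : ∀ᶠ p in 𝓝 ((x₀, 0) : V × B), π (Φ p) = π p.1 + p.2
  fZ : ∀ᶠ x in 𝓝 x₀, ∀ κ, fderiv ℂ f x (Z x κ) = 0
  πZ : ∀ᶠ x in 𝓝 x₀, ∀ κ, π (Z x κ) = κ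
  fY : ∀ᶠ x in 𝓝 x₀, ∀ κ, fderiv ℂ f x (Y x κ) = κ
  πY : ∀ᶠ x in 𝓝 x₀, ∀ κ, π (Y x κ) = 0
  inj : ∀ᶠ x in 𝓝 x₀, ∀ ξ, ξ = Y x (fderiv ℂ f x ξ) + Z x (π ξ)
  der : ∀ᶠ p in 𝓝 ((x₀, 0) : V × B), HasFDerivAt (fun b => Φ (p.1, b)) (Z (Φ p)) p.2
  leaf : ∀ᶠ p in 𝓝 ((x₀, x₀) : V × V), f p.1 = f p.2 → p.2 = Φ (p.1, π p.2 - π p.1)

/-- The inverse `Ψ` of `(f, π)`, and its relation to the flow. -/
structure FlPsi {V B' : Type*} [NormedAddCommGroup V] [NormedSpace ℂ V] [NormedAddCommGroup B']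
    [NormedSpace ℂ B'] (f : V → B') (π : V →L[ℂ] B) (x₀ : V) (Φ : V × B → V) (Z : V → B →L[ℂ] V)
    (Y : V → B' →L[ℂ] V) (Ψ : B' × B → V) : Prop where
  an : ContDiffAt ℂ ω Ψ (f x₀, π x₀)
  anY : ContDiffAt ℂ ω Y x₀
  base : Ψ (f x₀, π x₀) = x₀
  l : ∀ᶠ x in 𝓝 x₀, Ψ (f x, π x) = x
  r : ∀ᶠ z in 𝓝 ((f x₀, π x₀) : B' × B), (f (Ψ z), π (Ψ z)) = z
  Φe : ∀ p, Φ p = Ψ (f p.1, π p.1 + p.2)
  der : ∀ᶠ z in 𝓝 ((f x₀, π x₀) : B' × B), HasFDerivAt Ψ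
    ((Y (Ψ z)).comp (ContinuousLinearMap.fst ℂ B' B) +
      (Z (Ψ z)).comp (ContinuousLinearMap.snd ℂ B' B)) z

theorem exists_fl {V : Type*} [NormedAddCommGroup V] [NormedSpace ℂ V] [CompleteSpace V] {B' : Type*}
    [NormedAddCommGroup B'] [NormedSpace ℂ B'] [CompleteSpace B'] (f : V → B') (π : V →L[ℂ] B)
    (x₀ : V) (hf : AnalyticAt ℂ f x₀) (T : V ≃L[ℂ] B' × B)
    (hT : ∀ v, T v = (fderiv ℂ f x₀ v, π v)) :
    ∃ Φ Z Y, Fl f π x₀ Φ Z Y ∧ ∃ Ψ, FlPsi f π x₀ Φ Z Y Ψ := by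
  obtain ⟨Ψ, hΨ, hΨ0, hl, hr⟩ := exists_psi f π x₀ hf T hT
  have hΨe : ∀ᶠ z in 𝓝 ((f x₀, π x₀) : B' × B), ContDiffAt ℂ ω Ψ z := hΨ.eventually (by simp)
  set gr : V → B' × B := fun x => (f x, π x) with hgr
  have hgrc : ContDiffAt ℂ ω gr x₀ := hf.contDiffAt.prodMk π.contDiff.contDiffAt
  have hgrt : Tendsto gr (𝓝 x₀) (𝓝 (f x₀, π x₀)) := hgrc.continuousAt
  -- the map `(x, y) ↦ (f x, π x + y)`
  set sh : V × B → B' × B := fun p => (f p.1, π p.1 + p.2) with hsh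
  have hsh0 : sh (x₀, 0) = (f x₀, π x₀) := by simp [sh]
  have hshc : ContDiffAt ℂ ω sh (x₀, 0) := by
    refine ContDiffAt.prodMk ?_ ?_
    · exact ContDiffAt.comp (x₀, (0 : B)) (f := Prod.fst) hf.contDiffAt contDiffAt_fst
    · exact ((π.contDiff.comp contDiff_fst).add contDiff_snd).contDiffAt
  have hsht : Tendsto sh (𝓝 (x₀, 0)) (𝓝 (f x₀, π x₀)) := by
    rw [← hsh0]
    exact hshc.continuousAt
  set Φ : V × B → V := fun p => Ψ (sh p) with hΦ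
  have hΦc : ContDiffAt ℂ ω Φ (x₀, 0) := by
    refine ContDiffAt.comp (x₀, (0 : B)) ?_ hshc
    rw [hsh0]
    exact hΨ
  have hΦ0 : Φ (x₀, 0) = x₀ := by
    show Ψ (sh (x₀, 0)) = x₀
    rw [hsh0, hΨ0]
  have hΦt : Tendsto Φ (𝓝 (x₀, 0)) (𝓝 x₀) := by
    have := hΦc.continuousAt.tendsto
    rwa [hΦ0] at this
  have hDΨ : ContDiffAt ℂ ω (fun x => fderiv ℂ Ψ (gr x)) x₀ :=
    ContDiffAt.comp x₀ (g := fun z => fderiv ℂ Ψ z) (hΨ.fderiv_right (m := ω) (by simp)) hgrc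
  -- derivative of `Ψ ∘ gr = id` and `gr ∘ Ψ = id`
  have hder : ∀ᶠ x in 𝓝 x₀, HasFDerivAt gr ((fderiv ℂ f x).prod π) x := by
    have h1 : ∀ᶠ x in 𝓝 x₀, AnalyticAt ℂ f x := hf.eventually_analyticAt
    filter_upwards [h1] with x hx
    exact hx.differentiableAt.hasFDerivAt.prodMk π.hasFDerivAt
  have hleft : ∀ᶠ x in 𝓝 x₀, ∀ ξ, fderiv ℂ Ψ (gr x) (fderiv ℂ f x ξ, π ξ) = ξ := by
    filter_upwards [hl.eventually_nhds, hder, hgrt.eventually hΨe] with x h1 h2 h3 ξ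
    have h4 : HasFDerivAt (fun x => Ψ (gr x)) ((fderiv ℂ Ψ (gr x)).comp ((fderiv ℂ f x).prod π)) x :=
      (h3.differentiableAt (by simp)).hasFDerivAt.comp x h2
    have h5 : HasFDerivAt (fun x => Ψ (gr x)) (ContinuousLinearMap.id ℂ V) x :=
      (hasFDerivAt_id x).congr_of_eventuallyEq h1
    exact congrArg (fun L : V →L[ℂ] V => L ξ) (h4.unique h5)
  have hright : ∀ᶠ x in 𝓝 x₀, ∀ ζ : B' × B, (fderiv ℂ f x (fderiv ℂ Ψ (gr x) ζ),
      π (fderiv ℂ Ψ (gr x) ζ)) = ζ := by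
    filter_upwards [hgrt.eventually hr.eventually_nhds, hder, hgrt.eventually hΨe, hl]
      with x h1 h2 h3 h6 ζ
    have h6' : Ψ (gr x) = x := h6
    have h2' : HasFDerivAt gr ((fderiv ℂ f x).prod π) (Ψ (gr x)) := by rw [h6']; exact h2
    have h4 : HasFDerivAt (fun z => gr (Ψ z)) (((fderiv ℂ f x).prod π).comp (fderiv ℂ Ψ (gr x)))
        (gr x) := h2'.comp (gr x) (h3.differentiableAt (by simp)).hasFDerivAt
    have h5 : HasFDerivAt (fun z => gr (Ψ z)) (ContinuousLinearMap.id ℂ (B' × B)) (gr x) :=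
      (hasFDerivAt_id (gr x)).congr_of_eventuallyEq h1
    exact congrArg (fun L : (B' × B) →L[ℂ] (B' × B) => L ζ) (h4.unique h5)
  refine ⟨Φ, fun x => (fderiv ℂ Ψ (gr x)).comp (ContinuousLinearMap.inr ℂ B' B),
    fun x => (fderiv ℂ Ψ (gr x)).comp (ContinuousLinearMap.inl ℂ B' B), ?_, Ψ, hΨ,
    hDΨ.clm_comp contDiffAt_const, hΨ0, hl, hr, fun p => rfl, ?_⟩
  swap
  · filter_upwards [hr, hΨe] with z h1 h2
    have h3 := (h2.differentiableAt (by simp)).hasFDerivAt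
    have h4 : ((fderiv ℂ Ψ (gr (Ψ z))).comp (ContinuousLinearMap.inl ℂ B' B)).comp
        (ContinuousLinearMap.fst ℂ B' B) +
        ((fderiv ℂ Ψ (gr (Ψ z))).comp (ContinuousLinearMap.inr ℂ B' B)).comp
        (ContinuousLinearMap.snd ℂ B' B) = fderiv ℂ Ψ z := by
      have h5 : gr (Ψ z) = z := h1
      rw [h5]
      refine ContinuousLinearMap.ext fun ζ => ?_
      show fderiv ℂ Ψ z (ζ.1, 0) + fderiv ℂ Ψ z (0, ζ.2) = fderiv ℂ Ψ z ζ
      rw [← map_add, Prod.mk_add_mk, add_zero, zero_add]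
    rw [h4]
    exact h3
  have hshΦ : ∀ᶠ p in 𝓝 ((x₀, 0) : V × B), gr (Φ p) = sh p := hsht.eventually hr
  refine ⟨hΦc, hDΨ.clm_comp contDiffAt_const, hΦ0, ?_, ?_, ?_, ?_, ?_, ?_, ?_, ?_, ?_, ?_⟩
  · filter_upwards [hl] with x hx
    show Ψ (f x, π x + 0) = x
    rw [add_zero]
    exact hx
  · filter_upwards [hshΦ] with p hp
    exact congrArg Prod.fst hp
  · filter_upwards [hshΦ] with p hp
    exact congrArg Prod.snd hp
  · filter_upwards [hright] with x hx κ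
    exact congrArg Prod.fst (hx (0, κ))
  · filter_upwards [hright] with x hx κ
    exact congrArg Prod.snd (hx (0, κ))
  · filter_upwards [hright] with x hx κ
    exact congrArg Prod.fst (hx (κ, 0))
  · filter_upwards [hright] with x hx κ
    exact congrArg Prod.snd (hx (κ, 0))
  · filter_upwards [hleft] with x hx ξ
    show ξ = fderiv ℂ Ψ (gr x) (fderiv ℂ f x ξ, 0) + fderiv ℂ Ψ (gr x) (0, π ξ)
    rw [← map_add, Prod.mk_add_mk, add_zero, zero_add]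
    exact (hx ξ).symm
  · filter_upwards [hshΦ, hsht.eventually hΨe] with p h1 h2
    have h3 : HasFDerivAt (fun b : B => ((f p.1, π p.1 + b) : B' × B))
        (ContinuousLinearMap.inr ℂ B' B) p.2 := by
      have h4 := (hasFDerivAt_const (𝕜 := ℂ) (f p.1) p.2).prodMk
        ((hasFDerivAt_id (𝕜 := ℂ) p.2).const_add (π p.1))
      exact h4
    have h5 : HasFDerivAt (fun b => Φ (p.1, b)) ((fderiv ℂ Ψ (sh p)).comp
        (ContinuousLinearMap.inr ℂ B' B)) p.2 :=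
      HasFDerivAt.comp p.2 (g := Ψ) (h2.differentiableAt (by simp)).hasFDerivAt h3
    rw [← h1] at h5
    exact h5
  · have h1 : Tendsto (fun p : V × V => p.2) (𝓝 (x₀, x₀)) (𝓝 x₀) := continuous_snd.continuousAt
    filter_upwards [h1.eventually hl] with p h2 h3
    show p.2 = Ψ (f p.1, π p.1 + (π p.2 - π p.1))
    rw [add_sub_cancel, h3]
    exact h2.symm

/-- a function which is constant along the frame is constant along the flow -/
lemma Fl.const {V B' : Type*} [NormedAddCommGroup V] [NormedSpace ℂ V] [NormedAddCommGroup B']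
    [NormedSpace ℂ B'] {f : V → B'} {π : V →L[ℂ] B} {x₀ : V} {Φ : V × B → V} {Z : V → B →L[ℂ] V}
    {Y : V → B' →L[ℂ] V} (h : Fl f π x₀ Φ Z Y) {g : V → H}
    (hg : ∀ᶠ x in 𝓝 x₀, DifferentiableAt ℂ g x) (hgZ : ∀ᶠ x in 𝓝 x₀, ∀ κ, fderiv ℂ g x (Z x κ) = 0) :
    ∀ᶠ p in 𝓝 ((x₀, 0) : V × B), g (Φ p) = g p.1 := by
  have hΦt : Tendsto Φ (𝓝 (x₀, 0)) (𝓝 x₀) := by
    have := h.an.continuousAt.tendsto
    rwa [h.base] at this
  have h1 : ∀ᶠ p in 𝓝 ((x₀, 0) : V × B),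
      HasFDerivAt (fun b => g (Φ (p.1, b))) (0 : B →L[ℂ] H) p.2 := by
    filter_upwards [h.der, hΦt.eventually hg, hΦt.eventually hgZ] with p h1 h2 h3
    have h4 := HasFDerivAt.comp p.2 (g := g) h2.hasFDerivAt h1
    have h5 : (fderiv ℂ g (Φ p)).comp (Z (Φ p)) = 0 := by
      ext κ
      exact h3 κ
    rw [← h5]
    exact h4
  have h2 := const_snd (G := fun p => g (Φ p)) h1
  have h3 : Tendsto (fun p : V × B => p.1) (𝓝 (x₀, 0)) (𝓝 x₀) := continuous_fst.continuousAt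
  filter_upwards [h2, h3.eventually h.zero] with p h4 h5
  rw [h4, h5]

end gen

end Vale.Agent.P284.H286
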