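import Vale.Agent.P284.H286.Vert
import Mathlib.LinearAlgebra.Matrix.SchurComplement
import Mathlib.Analysis.InnerProductSpace.Calculus

/-!
# P284 (helper286), module NS (c): isotriviality along the leaves (`HStmt`)
-/

open scoped Topology ContDiff
open Filter Metric Set

noncomputable section

namespace Vale.Agent.P284.H286

open Vale.Agent.P272.K Vale.Agent.P284.H625

variable {q r k s : ℕ}

/-- the projection `π`, which factors through `t`, and is an isomorphism on the kernel -/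
lemma exists_proj (hk : s + k = q + r) (A : Cm (q + r) →L[ℂ] (Fin s → ℂ))
    (hA : Function.Surjective A) (hi : ∀ ξ, A ξ = 0 → tq ξ = 0 → ξ = 0) :
    ∃ (π' : Cm q →L[ℂ] Cm k) (T : Cm (q + r) ≃L[ℂ] (Fin s → ℂ) × Cm k),
      ∀ v, T v = (A v, π' (tq v)) := by
  set K := LinearMap.ker (A : Cm (q + r) →ₗ[ℂ] (Fin s → ℂ)) with hK
  have hdim : Module.finrank ℂ K = k := by
    have h1 := LinearMap.finrank_range_add_finrank_ker (A : Cm (q + r) →ₗ[ℂ] (Fin s → ℂ))
    have h2 : LinearMap.range (A : Cm (q + r) →ₗ[ℂ] (Fin s → ℂ)) = ⊤ :=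
      LinearMap.range_eq_top.2 hA
    rw [h2, finrank_top, Module.finrank_fin_fun, Module.finrank_fin_fun, ← hK] at h1
    omega
  have hφ : Nonempty (K ≃ₗ[ℂ] Cm k) :=
    ⟨LinearEquiv.ofFinrankEq K (Cm k) (by rw [hdim, Module.finrank_fin_fun])⟩
  obtain ⟨φ⟩ := hφ
  set j : K →ₗ[ℂ] Cm q := (tqL (q := q) (r := r) : Cm (q + r) →ₗ[ℂ] Cm q).comp K.subtype with hj
  have hjinj : LinearMap.ker j = ⊥ := by
    rw [LinearMap.ker_eq_bot']
    intro m hm
    exact Subtype.ext (hi m m.2 hm)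
  obtain ⟨ρ, hρ⟩ := j.exists_leftInverse_of_injective hjinj
  set π' : Cm q →L[ℂ] Cm k := LinearMap.toContinuousLinearMap ((φ : K →ₗ[ℂ] Cm k).comp ρ) with hπ'
  set T₀ : Cm (q + r) →ₗ[ℂ] (Fin s → ℂ) × Cm k :=
    (A : Cm (q + r) →ₗ[ℂ] (Fin s → ℂ)).prod
      ((π' : Cm q →ₗ[ℂ] Cm k).comp (tqL (q := q) (r := r) : Cm (q + r) →ₗ[ℂ] Cm q)) with hT₀
  have hT₀a : ∀ v, T₀ v = (A v, π' (tq v)) := fun v => rfl
  have hinj : Function.Injective T₀ := by
    rw [← LinearMap.ker_eq_bot, LinearMap.ker_eq_bot']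
    intro v hv
    rw [hT₀a, Prod.mk_eq_zero] at hv
    have hvK : v ∈ K := hv.1
    have h1 : π' (tq v) = φ (ρ (j ⟨v, hvK⟩)) := rfl
    have h2 : ρ (j ⟨v, hvK⟩) = ⟨v, hvK⟩ := congrArg (fun L : K →ₗ[ℂ] K => L ⟨v, hvK⟩) hρ
    rw [h1, h2] at hv
    have h3 := (LinearEquiv.map_eq_zero_iff φ).1 hv.2
    exact congrArg Subtype.val h3
  have hfr : Module.finrank ℂ (Cm (q + r)) = Module.finrank ℂ ((Fin s → ℂ) × Cm k) := by
    rw [Module.finrank_prod, Module.finrank_fin_fun, Module.finrank_fin_fun,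
      Module.finrank_fin_fun, hk]
  refine ⟨π', (LinearMap.linearEquivOfInjective T₀ hinj hfr).toContinuousLinearEquiv, fun v => ?_⟩
  exact hT₀a v

/-- a determinant with one general row -/
lemma det_row (b : Fin k) (w : Fin k → ℂ) :
    ((1 : Matrix (Fin k) (Fin k) ℂ).updateRow b w).det = w b := by
  rw [← Matrix.cramer_transpose_apply, Matrix.transpose_one, Matrix.cramer_one]
  rfl

/-- the factorization of the Plücker determinants -/
lemma pl_det (e : Fin s ⊕ Fin k ≃ Fin (q + r)) (A : Cm (q + r) →L[ℂ] (Fin s → ℂ))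
    (al : Cm q →L[ℂ] Cm k) (Y : (Fin s → ℂ) →L[ℂ] Cm (q + r)) (Z : Cm k →L[ℂ] Cm (q + r))
    (hY : ∀ κ, A (Y κ) = κ) (hZ : ∀ κ, A (Z κ) = 0) :
    (Matrix.of fun i j : Fin s ⊕ Fin k => Sum.elim (fun a => A (Pi.single (e j) 1) a)
        (fun b => al (tq (Pi.single (e j) 1)) b) i).det *
      (Matrix.of fun j l : Fin s ⊕ Fin k => Sum.elim (fun a => Y (Pi.single a 1) (e j))
        (fun b => Z (Pi.single b 1) (e j)) l).det =
      (Matrix.of fun b c : Fin k => al (tq (Z (Pi.single c 1))) b).det := by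
  set M := (Matrix.of fun i j : Fin s ⊕ Fin k => Sum.elim (fun a => A (Pi.single (e j) 1) a)
        (fun b => al (tq (Pi.single (e j) 1)) b) i) with hM
  set B := (Matrix.of fun j l : Fin s ⊕ Fin k => Sum.elim (fun a => Y (Pi.single a 1) (e j))
        (fun b => Z (Pi.single b 1) (e j)) l) with hB
  have hsum : ∀ (L : Cm (q + r) →L[ℂ] ℂ) (x : Cm (q + r)),
      ∑ j, L (Pi.single (e j) 1) * x (e j) = L x := by
    intro L x
    have h1 : x = ∑ i, x i • (Pi.single i (1 : ℂ) : Cm (q + r)) := by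
      funext i
      simp [Finset.sum_apply, Pi.single_apply]
    conv_rhs => rw [h1, map_sum, ← e.sum_comp]
    refine Finset.sum_congr rfl fun j _ => ?_
    rw [map_smul, smul_eq_mul, mul_comm]
  have h1 : M * B = Matrix.fromBlocks 1 0
      (Matrix.of fun b a => al (tq (Y (Pi.single a 1))) b)
      (Matrix.of fun b c : Fin k => al (tq (Z (Pi.single c 1))) b) := by
    ext i l
    rw [Matrix.mul_apply]
    rcases i with a | b <;> rcases l with a' | c
    · have h2 := hsum ((ContinuousLinearMap.proj a).comp A) (Y (Pi.single a' 1))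
      refine h2.trans ?_
      show A (Y (Pi.single a' 1)) a = _
      rw [hY, Matrix.fromBlocks_apply₁₁, Matrix.one_apply, Pi.single_apply]
    · have h2 := hsum ((ContinuousLinearMap.proj a).comp A) (Z (Pi.single c 1))
      refine h2.trans ?_
      show A (Z (Pi.single c 1)) a = _
      rw [hZ, Matrix.fromBlocks_apply₁₂]
      rfl
    · exact hsum ((ContinuousLinearMap.proj b).comp (al.comp tqL)) (Y (Pi.single a' 1))
    · exact hsum ((ContinuousLinearMap.proj b).comp (al.comp tqL)) (Z (Pi.single c 1))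
  rw [← Matrix.det_mul, h1, Matrix.det_fromBlocks_zero₁₂, Matrix.det_one, one_mul]

/-- the frame of the fibres does not depend on the vertical coordinates -/
lemma vert_frame {B : Type*} [NormedAddCommGroup B] [NormedSpace ℂ B]
    {f : Fin s → Cm (q + r) → ℂ} {π : Cm (q + r) →L[ℂ] B} {x₀ : Cm (q + r)}
    {Φ : Cm (q + r) × B → Cm (q + r)} {Z : Cm (q + r) → B →L[ℂ] Cm (q + r)}
    {Y : Cm (q + r) → (Fin s → ℂ) →L[ℂ] Cm (q + r)} (hfl : Fl (fun x i => f i x) π x₀ Φ Z Y)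
    (hf : ∀ i, AnalyticAt ℂ (f i) x₀) (a : Fin r)
    (hd : ∀ i, ∀ᶠ x in 𝓝 x₀, ∀ κ, fderiv ℂ (fun x => fderiv ℂ (f i) x (ey a)) x (Z x κ) = 0)
    (hfd : ∀ᶠ x in 𝓝 x₀, ∀ ξ i, fderiv ℂ (fun x i => f i x) x ξ i = fderiv ℂ (f i) x ξ) :
    ∀ᶠ x in 𝓝 x₀, fderiv ℂ Z x (ey a) = 0 := by
  have hfe : ∀ᶠ x in 𝓝 x₀, ∀ i, ContDiffAt ℂ ω (f i) x :=
    eventually_all.2 fun i => (hf i).contDiffAt.eventually (by simp)
  have hZe : ∀ᶠ x in 𝓝 x₀, DifferentiableAt ℂ Z x :=
    (hfl.anZ.eventually (by simp)).mono fun x hx => hx.differentiableAt (by simp)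
  have h0 : ∀ᶠ x in 𝓝 x₀, ∀ i κ, fderiv ℂ (f i) x (Z x κ) = 0 := by
    filter_upwards [hfl.fZ, hfd] with x h1 h2 i κ
    rw [← h2, h1]
    rfl
  filter_upwards [h0.eventually_nhds, hfl.πZ.eventually_nhds, hfe, hZe, eventually_all.2 hd,
    hfl.inj, hfd] with x h1 h2 h3 h4 h5 h6 h7
  ext1 κ
  have hZκ : HasFDerivAt (fun x => Z x κ)
      ((ContinuousLinearMap.apply ℂ (Cm (q + r)) κ : (B →L[ℂ] Cm (q + r)) →L[ℂ] Cm (q + r)).comp
        (fderiv ℂ Z x)) x :=
    ((ContinuousLinearMap.apply ℂ (Cm (q + r)) κ :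
      (B →L[ℂ] Cm (q + r)) →L[ℂ] Cm (q + r)).hasFDerivAt (x := Z x)).comp x h4.hasFDerivAt
  have hf0 : ∀ i, fderiv ℂ (f i) x (fderiv ℂ Z x (ey a) κ) = 0 := by
    intro i
    have h8 : HasFDerivAt (fderiv ℂ (f i)) (fderiv ℂ (fderiv ℂ (f i)) x) x :=
      (((h3 i).fderiv_right (m := ω) (by simp)).differentiableAt (by simp)).hasFDerivAt
    have h9 := h8.clm_apply hZκ
    have h10 : HasFDerivAt (fun x => fderiv ℂ (f i) x (Z x κ)) (0 : Cm (q + r) →L[ℂ] ℂ) x := by
      refine (hasFDerivAt_const (0 : ℂ) x).congr_of_eventuallyEq ?_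
      filter_upwards [h1] with y hy
      exact hy i κ
    have h11 := congrArg (fun L : Cm (q + r) →L[ℂ] ℂ => L (ey a)) (h9.unique h10)
    have h12 : fderiv ℂ (f i) x (fderiv ℂ Z x (ey a) κ) +
        fderiv ℂ (fderiv ℂ (f i)) x (ey a) (Z x κ) = 0 := h11
    rw [← fderiv_swap (h3 i), h5 i κ, add_zero] at h12
    exact h12
  have hπ0 : π (fderiv ℂ Z x (ey a) κ) = 0 := by
    have h8 := π.hasFDerivAt.comp x hZκ
    have h10 : HasFDerivAt (fun x => π (Z x κ)) (0 : Cm (q + r) →L[ℂ] B) x := by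
      refine (hasFDerivAt_const κ x).congr_of_eventuallyEq ?_
      filter_upwards [h2] with y hy
      exact hy κ
    exact congrArg (fun L : Cm (q + r) →L[ℂ] B => L (ey a)) (h8.unique h10)
  have h13 := h6 (fderiv ℂ Z x (ey a) κ)
  have h14 : fderiv ℂ (fun x i => f i x) x (fderiv ℂ Z x (ey a) κ) = 0 := by
    funext i
    rw [h7, hf0]
    rfl
  rw [h14, hπ0, map_zero, map_zero, add_zero] at h13
  exact h13

/-- a vector valued analytic function all of whose components vanish near `x₀` -/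
lemma vec_zero {V W : Type*} [NormedAddCommGroup V] [NormedSpace ℂ V] [NormedAddCommGroup W]
    [InnerProductSpace ℂ W] [CompleteSpace W] {b : V → W} {x₀ : V} (hb : AnalyticAt ℂ b x₀)
    (h : ∀ h : W, ∀ᶠ x in 𝓝 x₀, inner ℂ h (b x) = 0) : ∀ᶠ x in 𝓝 x₀, b x = 0 := by
  obtain ⟨ρ, hρ, hball⟩ := Metric.eventually_nhds_iff_ball.1 hb.eventually_analyticAt
  refine Metric.eventually_nhds_iff_ball.2 ⟨ρ, hρ, fun x hx => ?_⟩
  refine ext_inner_left ℂ fun w => ?_
  rw [inner_zero_right]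
  have h1 : AnalyticOnNhd ℂ (fun x => inner ℂ w (b x)) (ball x₀ ρ) := by
    intro z hz
    exact (innerSL ℂ w).analyticAt _ |>.fun_comp (hball z hz)
  exact h1.eqOn_zero_of_preconnected_of_eventuallyEq_zero
    (convex_ball x₀ ρ).isPreconnected (mem_ball_self hρ) (h w) hx

lemma pi_single_sum {H : Type*} [NormedAddCommGroup H] [NormedSpace ℂ H] (L : Cm k →L[ℂ] H)
    (κ : Cm k) : L κ = ∑ b, κ b • L (Pi.single b 1) := by
  have h1 : κ = ∑ i, κ i • (Pi.single i (1 : ℂ) : Cm k) := by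
    funext i
    simp [Finset.sum_apply, Pi.single_apply]
  conv_lhs => rw [h1, map_sum]
  exact Finset.sum_congr rfl fun b _ => map_smul _ _ _

/-- **H** (module NS (c)). -/
theorem hStmt : HStmt := by
  intro q r k s e hk W _ _ _ x₀ 𝓕 F h𝓕 hcl hF hFc f hf𝓕 hsurj hker htr hpl
  have hfa : ∀ i, AnalyticAt ℂ (f i) x₀ := fun i => h𝓕 _ (hf𝓕 i)
  set ff : Cm (q + r) → (Fin s → ℂ) := fun x i => f i x with hff
  have hffa : AnalyticAt ℂ ff x₀ := AnalyticAt.pi hfa
  have hfd : ∀ᶠ x in 𝓝 x₀, ∀ ξ i, fderiv ℂ ff x ξ i = fderiv ℂ (f i) x ξ := by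
    have h1 : ∀ᶠ x in 𝓝 x₀, ∀ i, AnalyticAt ℂ (f i) x :=
      eventually_all.2 fun i => (hfa i).eventually_analyticAt
    filter_upwards [h1] with x hx ξ i
    have h2 : HasFDerivAt ff (ContinuousLinearMap.pi fun i => fderiv ℂ (f i) x) x :=
      hasFDerivAt_pi.2 fun i => (hx i).differentiableAt.hasFDerivAt
    rw [h2.fderiv]
    rfl
  have hcard : s + k = q + r := by
    have := Fintype.card_congr e
    simpa using this
  obtain ⟨π', T, hT⟩ := exists_proj (q := q) (r := r) hcard (fderiv ℂ ff x₀)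
    (fun y => by
      obtain ⟨ξ, hξ⟩ := hsurj y
      refine ⟨ξ, funext fun i => ?_⟩
      rw [hfd.self_of_nhds, hξ])
    (fun ξ h1 h2 => htr ξ (fun i => by rw [← hfd.self_of_nhds, h1]; rfl) h2)
  set π : Cm (q + r) →L[ℂ] Cm k := π'.comp tqL with hπ
  obtain ⟨Φ, Z, Y, hfl, -⟩ := exists_fl ff π x₀ hffa T hT
  have hΦt : Tendsto Φ (𝓝 (x₀, 0)) (𝓝 x₀) := by
    have := hfl.an.continuousAt.tendsto
    rwa [hfl.base] at this
  have hfst : Tendsto (fun p : Cm (q + r) × Cm k => p.1) (𝓝 (x₀, 0)) (𝓝 x₀) :=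
    continuous_fst.continuousAt
  -- natural functions are constant in the direction of the frame
  have h1 : ∀ g ∈ 𝓕, ∀ᶠ x in 𝓝 x₀, ∀ κ, fderiv ℂ g x (Z x κ) = 0 := by
    intro g hg
    filter_upwards [hker g hg, hfl.fZ, hfd] with x a1 a2 a3 κ
    refine a1 _ fun i => ?_
    rw [← a3, a2]
    rfl
  have hgΦ : ∀ g ∈ 𝓕, ∀ᶠ p in 𝓝 ((x₀, 0) : Cm (q + r) × Cm k), g (Φ p) = g p.1 := by
    intro g hg
    exact hfl.const ((h𝓕 g hg).eventually_analyticAt.mono fun x hx => hx.differentiableAt) (h1 g hg)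
  -- the frame only depends on `t`
  have h2 : ∀ᶠ x in 𝓝 x₀, ∀ a : Fin r, fderiv ℂ Z x (ey a) = 0 :=
    eventually_all.2 fun a => vert_frame hfl hfa a (fun i => h1 _ (hcl _ (hf𝓕 i) a)) hfd
  have hZc : ∀ᶠ x in 𝓝 x₀, ContDiffAt ℂ ω Z x := hfl.anZ.eventually (by simp)
  have hZe : ∀ᶠ x in 𝓝 x₀, DifferentiableAt ℂ Z x :=
    hZc.mono fun x hx => hx.differentiableAt (by simp)
  have h3 : ∀ᶠ x in 𝓝 x₀, Z x = Z (sg x₀ (tq x)) := const_vert hZe h2
  set N : Cm q → Cm k →L[ℂ] Cm q := fun t => tqL.comp (Z (sg x₀ t)) with hN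
  have h4 : ∀ᶠ x in 𝓝 x₀, ∀ κ, tq (Z x κ) = N (tq x) κ := by
    filter_upwards [h3] with x hx κ
    show tq (Z x κ) = tq (Z (sg x₀ (tq x)) κ)
    rw [← hx]
  -- the derivative of `F` along the frame only depends on `t`
  have hFe : ∀ᶠ x in 𝓝 x₀, ContDiffAt ℂ ω F x := hF.contDiffAt.eventually (by simp)
  have hFae : ∀ a : Fin r, ∀ᶠ x in 𝓝 x₀,
      DifferentiableAt ℂ (fun x => fderiv ℂ F x (ey a)) x := by
    intro a
    filter_upwards [hFe] with x hx
    have a1 : ContDiffAt ℂ ω (fun x => fderiv ℂ F x (ey a)) x :=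
      (hx.fderiv_right (m := ω) (by simp)).clm_apply contDiffAt_const
    exact a1.differentiableAt (by simp)
  have h5a : ∀ a : Fin r, ∀ᶠ x in 𝓝 x₀, ∀ κ,
      fderiv ℂ (fun x => fderiv ℂ F x (ey a)) x (Z x κ) = 0 := by
    intro a
    have hF0 : ContDiffAt ℂ ω F x₀ := hF.contDiffAt
    have hFa : ContDiffAt ℂ ω (fun x => fderiv ℂ F x (ey a)) x₀ :=
      (hF0.fderiv_right (m := ω) (by simp)).clm_apply contDiffAt_const
    have h6 : ∀ b : Fin k, ∀ᶠ x in 𝓝 x₀,
        fderiv ℂ (fun x => fderiv ℂ F x (ey a)) x (Z x (Pi.single b 1)) = 0 := by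
      intro b
      refine vec_zero ?_ fun w => ?_
      · exact ((hFa.fderiv_right (m := ω) (by simp)).clm_apply
          (hfl.anZ.clm_apply contDiffAt_const)).analyticAt
      · filter_upwards [h1 _ (hFc a w), hFae a] with x a1 a2
        have a3 : HasFDerivAt (fun x => inner ℂ w (fderiv ℂ F x (ey a)))
            ((innerSL ℂ w).comp (fderiv ℂ (fun x => fderiv ℂ F x (ey a)) x)) x :=
          ((innerSL ℂ w).hasFDerivAt (x := fderiv ℂ F x (ey a))).comp x a2.hasFDerivAt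
        have a4 := a1 (Pi.single b 1)
        rw [a3.fderiv] at a4
        exact a4
    filter_upwards [eventually_all.2 h6] with x hx κ
    have h7 := pi_single_sum ((fderiv ℂ (fun x => fderiv ℂ F x (ey a)) x).comp (Z x)) κ
    refine h7.trans (Finset.sum_eq_zero fun b _ => ?_)
    rw [ContinuousLinearMap.comp_apply, hx b, smul_zero]
  set c : Cm (q + r) → Cm k →L[ℂ] W := fun x => (fderiv ℂ F x).comp (Z x) with hc
  have h5 : ∀ᶠ x in 𝓝 x₀, c x = c (sg x₀ (tq x)) := by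
    refine const_vert ?_ ?_
    · filter_upwards [hFe, hZc] with x a1 a2
      exact ((a1.fderiv_right (m := ω) (by simp)).clm_comp a2).differentiableAt (by simp)
    · filter_upwards [hFe, hZe, eventually_all.2 h5a, h2] with x a1 a2 a3 a4 a
      have a5 : HasFDerivAt (fderiv ℂ F) (fderiv ℂ (fderiv ℂ F) x) x :=
        ((a1.fderiv_right (m := ω) (by simp)).differentiableAt (by simp)).hasFDerivAt
      have a6 := a5.clm_comp a2.hasFDerivAt
      rw [a6.fderiv]
      ext1 κ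
      show (fderiv ℂ F x) (fderiv ℂ Z x (ey a) κ) + fderiv ℂ (fderiv ℂ F) x (ey a) (Z x κ) = 0
      rw [a4 a, ← fderiv_swap a1, a3 a κ, add_zero]
      exact map_zero _
  -- Plücker
  have h6 : ∀ᶠ p in 𝓝 ((x₀, 0) : Cm (q + r) × Cm k), N (tq (Φ p)) = N (tq p.1) := by
    set P : (Fin k → Cm q →L[ℂ] ℂ) → Cm (q + r) → ℂ := fun α x =>
      (Matrix.of fun i j : Fin s ⊕ Fin k =>
        Sum.elim (fun a => fderiv ℂ (f a) x (Pi.single (e j) 1))
          (fun b => α b (tq (Pi.single (e j) 1))) i).det with hP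
    set D : Cm (q + r) → ℂ := fun x =>
      (Matrix.of fun j l : Fin s ⊕ Fin k => Sum.elim (fun a => Y x (Pi.single a 1) (e j))
        (fun b => Z x (Pi.single b 1) (e j)) l).det with hD
    have hPD : ∀ᶠ x in 𝓝 x₀, ∀ α : Fin k → Cm q →L[ℂ] ℂ, P α x * D x =
        (Matrix.of fun b c : Fin k => α b (tq (Z x (Pi.single c 1)))).det := by
      filter_upwards [hfl.fY, hfl.fZ, hfd] with x a1 a2 a3 α
      have a4 := pl_det e (fderiv ℂ ff x) (ContinuousLinearMap.pi α) (Y x) (Z x) a1 a2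
      refine Eq.trans ?_ a4
      refine congrArg (· * D x) (congrArg Matrix.det ?_)
      ext i j
      rcases i with i | i
      · exact (a3 _ _).symm
      · rfl
    set α₀ : Fin k → Cm q →L[ℂ] ℂ := fun b => (ContinuousLinearMap.proj b).comp π' with hα₀
    have hα₀Z : ∀ᶠ x in 𝓝 x₀, ∀ b c, α₀ b (tq (Z x (Pi.single c 1))) =
        (1 : Matrix (Fin k) (Fin k) ℂ) b c := by
      filter_upwards [hfl.πZ] with x hx b c
      have : π' (tq (Z x (Pi.single c 1))) = Pi.single c 1 := hx _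
      show π' (tq (Z x (Pi.single c 1))) b = _
      rw [this, Matrix.one_apply, Pi.single_apply]
    have hone : ∀ᶠ x in 𝓝 x₀, P α₀ x * D x = 1 := by
      filter_upwards [hPD, hα₀Z] with x a1 a2
      rw [a1 α₀]
      have : (Matrix.of fun b c : Fin k => α₀ b (tq (Z x (Pi.single c 1)))) = 1 := by
        ext b c
        exact a2 b c
      rw [this, Matrix.det_one]
    have hup : ∀ᶠ x in 𝓝 x₀, ∀ (b : Fin k) (j : Fin q),
        P (Function.update α₀ b (ContinuousLinearMap.proj j)) x * D x =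
          tq (Z x (Pi.single b 1)) j := by
      filter_upwards [hPD, hα₀Z] with x a1 a2 b j
      rw [a1]
      have : (Matrix.of fun b' c : Fin k =>
          (Function.update α₀ b (ContinuousLinearMap.proj j)) b' (tq (Z x (Pi.single c 1)))) =
          (1 : Matrix (Fin k) (Fin k) ℂ).updateRow b (fun c => tq (Z x (Pi.single c 1)) j) := by
        ext b' c
        by_cases hb : b' = b
        · subst hb
          rw [Matrix.updateRow_self, Matrix.of_apply, Function.update_self]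
          rfl
        · rw [Matrix.updateRow_ne hb, Matrix.of_apply, Function.update_of_ne hb]
          exact a2 b' c
      rw [this, det_row]
    have hPc : ∀ α, ∀ᶠ p in 𝓝 ((x₀, 0) : Cm (q + r) × Cm k), P α (Φ p) = P α p.1 := fun α =>
      hgΦ _ (hpl α)
    have hPc2 : ∀ᶠ p in 𝓝 ((x₀, 0) : Cm (q + r) × Cm k), ∀ (b : Fin k) (j : Fin q),
        P (Function.update α₀ b (ContinuousLinearMap.proj j)) (Φ p) =
        P (Function.update α₀ b (ContinuousLinearMap.proj j)) p.1 :=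
      eventually_all.2 fun b => eventually_all.2 fun j => hPc _
    filter_upwards [hPc α₀, hPc2, hΦt.eventually hone, hfst.eventually hone, hΦt.eventually hup,
      hfst.eventually hup, hΦt.eventually h4, hfst.eventually h4] with p a1 a2 a3 a4 a5 a6 a7 a8
    have hDD : D (Φ p) = D p.1 := by
      have h0 : P α₀ p.1 ≠ 0 := fun h => by
        rw [h, zero_mul] at a4
        exact zero_ne_one a4
      rw [a1, ← a4] at a3
      exact mul_left_cancel₀ h0 a3
    ext1 κ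
    rw [pi_single_sum (N (tq (Φ p))), pi_single_sum (N (tq p.1))]
    refine Finset.sum_congr rfl fun b _ => ?_
    congr 1
    funext j
    rw [← a7, ← a8, ← a5 b j, ← a6 b j, hDD, a2 b j]
  -- the first coordinates along the flow
  have h7 : ∀ᶠ p in 𝓝 ((x₀, 0) : Cm (q + r) × Cm k),
      tq (Φ p) = tq p.1 + N (tq p.1) p.2 := by
    have a1 : ∀ᶠ p in 𝓝 ((x₀, 0) : Cm (q + r) × Cm k),
        HasFDerivAt (fun b => tqL (Φ (p.1, b)) - N (tq p.1) b) (0 : Cm k →L[ℂ] Cm q) p.2 := by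
      filter_upwards [hfl.der, hΦt.eventually h4, h6] with p b1 b2 b3
      have b4 := ((tqL (q := q) (r := r)).hasFDerivAt.comp p.2 b1).sub
        (N (tq p.1)).hasFDerivAt
      have b5 : (tqL (q := q) (r := r)).comp (Z (Φ p)) - N (tq p.1) = 0 := by
        rw [← b3]
        ext1 κ
        show tq (Z (Φ p) κ) - N (tq (Φ p)) κ = 0
        rw [b2, sub_self]
      rw [← b5]
      exact b4
    have a2 := const_snd (G := fun p : Cm (q + r) × Cm k => tqL (Φ p) - N (tq p.1) p.2) a1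
    filter_upwards [a2, hfst.eventually hfl.zero] with p b1 b2
    rw [b2, map_zero, sub_zero] at b1
    exact sub_eq_iff_eq_add.1 b1
  -- the translation
  have hsgt : Tendsto (fun p : Cm (q + r) × Cm k => ((sg x₀ (tq p.1), p.2) : Cm (q + r) × Cm k))
      (𝓝 (x₀, 0)) (𝓝 (x₀, 0)) :=
    ((((sg_tendsto x₀).comp (tq_tendsto x₀)).comp hfst)).prodMk_nhds continuous_snd.continuousAt
  have h8 : ∀ᶠ p in 𝓝 ((x₀, 0) : Cm (q + r) × Cm k),
      F (Φ p) = F p.1 + (F (Φ (sg x₀ (tq p.1), p.2)) - F (sg x₀ (tq p.1))) := by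
    have hFd : ∀ᶠ x in 𝓝 x₀, HasFDerivAt F (fderiv ℂ F x) x :=
      hFe.mono fun x hx => (hx.differentiableAt (by simp)).hasFDerivAt
    have a1 : ∀ᶠ p in 𝓝 ((x₀, 0) : Cm (q + r) × Cm k),
        HasFDerivAt (fun b => F (Φ (p.1, b)) - F (Φ (sg x₀ (tq p.1), b)))
          (0 : Cm k →L[ℂ] W) p.2 := by
      filter_upwards [hfl.der, hsgt.eventually hfl.der, hΦt.eventually hFd,
        (hΦt.comp hsgt).eventually hFd, hΦt.eventually h5, (hΦt.comp hsgt).eventually h5, h7,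
        hsgt.eventually h7] with p b1 b2 b3 b4 b5 b6 b7 b8
      have b9 := (HasFDerivAt.comp p.2 (g := F) b3 b1).sub (HasFDerivAt.comp p.2 (g := F) b4 b2)
      have b10 : c (Φ p) - c (Φ (sg x₀ (tq p.1), p.2)) = 0 := by
        have b6' : c (Φ (sg x₀ (tq p.1), p.2)) = c (sg x₀ (tq (Φ (sg x₀ (tq p.1), p.2)))) := b6
        have b8' : tq (Φ (sg x₀ (tq p.1), p.2)) =
          tq (sg x₀ (tq p.1)) + N (tq (sg x₀ (tq p.1))) p.2 := b8
        rw [b5, b6', b8', b7, tq_sg, sub_self]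
      rw [← b10]
      exact b9
    have a2 := const_snd (G := fun p : Cm (q + r) × Cm k =>
      F (Φ p) - F (Φ (sg x₀ (tq p.1), p.2))) a1
    filter_upwards [a2, hfst.eventually hfl.zero,
      (((sg_tendsto x₀).comp (tq_tendsto x₀)).comp hfst).eventually hfl.zero] with p b1 b2 b3
    have b3' : Φ (sg x₀ (tq p.1), 0) = sg x₀ (tq p.1) := b3
    rw [b2, b3'] at b1
    rw [sub_eq_iff_eq_add'.1 b1]
    abel
  refine ⟨N, Φ, fun z => F (Φ (sg x₀ z.1, z.2)) - F (sg x₀ z.1), ?_, hfl.an.analyticAt, ?_, ?_,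
    hfl.zero, h7, h6, h8, hgΦ, ?_⟩
  · have b1 : ContDiffAt ℂ ω (fun t => Z (sg x₀ t)) (tq x₀) := by
      refine ContDiffAt.comp (tq x₀) (g := Z) ?_ (sg_contDiff x₀).contDiffAt
      rw [sg_tq]
      exact hfl.anZ
    exact (contDiffAt_const.clm_comp b1).analyticAt
  · have b1 : ContDiffAt ℂ ω (fun z : Cm q × Cm k => ((sg x₀ z.1, z.2) : Cm (q + r) × Cm k))
        (tq x₀, 0) := (((sg_contDiff x₀).comp contDiff_fst).prodMk contDiff_snd).contDiffAt
    have b2 : ContDiffAt ℂ ω (fun z : Cm q × Cm k => Φ (sg x₀ z.1, z.2)) (tq x₀, 0) := by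
      refine ContDiffAt.comp (tq x₀, (0 : Cm k)) (g := Φ) ?_ b1
      show ContDiffAt ℂ ω Φ (sg x₀ (tq x₀), 0)
      rw [sg_tq]
      exact hfl.an
    have b3 : ContDiffAt ℂ ω (fun z : Cm q × Cm k => F (Φ (sg x₀ z.1, z.2))) (tq x₀, 0) := by
      refine ContDiffAt.comp (tq x₀, (0 : Cm k)) (g := F) ?_ b2
      show ContDiffAt ℂ ω F (Φ (sg x₀ (tq x₀), 0))
      rw [sg_tq, hfl.base]
      exact hF.contDiffAt
    have b4 : ContDiffAt ℂ ω (fun z : Cm q × Cm k => F (sg x₀ z.1)) (tq x₀, 0) := by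
      refine ContDiffAt.comp (tq x₀, (0 : Cm k)) (g := F) ?_
        ((sg_contDiff x₀).comp contDiff_fst).contDiffAt
      show ContDiffAt ℂ ω F (sg x₀ (tq x₀))
      rw [sg_tq]
      exact hF.contDiffAt
    exact (b3.sub b4).analyticAt
  · intro κ κ' hκ
    have b1 : ∀ κ, π (Z x₀ κ) = κ := hfl.πZ.self_of_nhds
    have b2 : ∀ κ, N (tq x₀) κ = tq (Z x₀ κ) := fun κ => (h4.self_of_nhds κ).symm
    rw [b2, b2] at hκ
    rw [← b1 κ, ← b1 κ']
    exact congrArg π' hκ
  · have b1 : Tendsto (fun p : Cm (q + r) × Cm (q + r) =>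
        ((p.1, π p.2 - π p.1) : Cm (q + r) × Cm k)) (𝓝 (x₀, x₀)) (𝓝 (x₀, 0)) := by
      have b2 : Continuous (fun p : Cm (q + r) × Cm (q + r) =>
        ((p.1, π p.2 - π p.1) : Cm (q + r) × Cm k)) := by fun_prop
      have b3 := b2.continuousAt (x := (x₀, x₀))
      rw [ContinuousAt] at b3
      simpa using b3
    filter_upwards [hfl.leaf, b1.eventually h7] with p b2 b3 b4
    have b5 := b2 (funext b4)
    refine ⟨π p.2 - π p.1, b5, ?_⟩
    have b3' : tq (Φ (p.1, π p.2 - π p.1)) = tq p.1 + N (tq p.1) (π p.2 - π p.1) := b3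
    rw [← b5] at b3'
    exact b3'

end Vale.Agent.P284.H286
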