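import Vale.Agent.P284.H286.NSH
import Vale.Agent.P284.H625.NS.Spec2

/-!
# P284 (helper286), module NS (c): isotriviality with constant planes (`HCStmt`)
-/

open scoped Topology ContDiff
open Filter Metric Set

noncomputable section

namespace Vale.Agent.P284.H286

open Vale.Agent.P272.K Vale.Agent.P284.H625

/-- constancy of the image of the frame -/
theorem const_frame {V B B' H : Type*} [NormedAddCommGroup V] [NormedSpace ℂ V]
    [NormedAddCommGroup B] [NormedSpace ℂ B] [NormedAddCommGroup B'] [NormedSpace ℂ B']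
    [NormedAddCommGroup H] [NormedSpace ℂ H]
    {f : V → B'} {π : V →L[ℂ] B} {x₀ : V} {Φ : V × B → V} {Z : V → B →L[ℂ] V}
    {Y : V → B' →L[ℂ] V} {Ψ : B' × B → V} (hps : FlPsi f π x₀ Φ Z Y Ψ)
    (hf : ContinuousAt f x₀) (L : V →L[ℂ] H)
    (hY : ∀ᶠ p in 𝓝 ((x₀, 0) : V × B), ∀ κ, L (Y (Φ p) κ) = L (Y p.1 κ))
    (hZ : ∀ᶠ p in 𝓝 ((x₀, 0) : V × B), ∀ κ, L (Z (Φ p) κ) = L (Z p.1 κ)) :
    ∀ᶠ x in 𝓝 x₀, ∀ κ, L (Z x κ) = L (Z x₀ κ) := by
  have hΨt : Tendsto Ψ (𝓝 (f x₀, π x₀)) (𝓝 x₀) := by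
    have := hps.an.continuousAt.tendsto
    rwa [hps.base] at this
  have ht1 : Tendsto (fun z : B' × B => ((z.1, π x₀) : B' × B)) (𝓝 (f x₀, π x₀))
      (𝓝 (f x₀, π x₀)) := by
    have : Continuous (fun z : B' × B => ((z.1, π x₀) : B' × B)) := by fun_prop
    exact this.continuousAt
  have ht2 : Tendsto (fun z : B' × B => ((Ψ (z.1, π x₀), z.2 - π x₀) : V × B))
      (𝓝 (f x₀, π x₀)) (𝓝 (x₀, 0)) := by
    refine (hΨt.comp ht1).prodMk_nhds ?_
    have : Continuous (fun z : B' × B => z.2 - π x₀) := by fun_prop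
    have h := this.continuousAt (x := (f x₀, π x₀))
    rw [ContinuousAt, sub_self] at h
    exact h
  have hΦz : ∀ᶠ z in 𝓝 ((f x₀, π x₀) : B' × B), Φ (Ψ (z.1, π x₀), z.2 - π x₀) = Ψ z := by
    filter_upwards [ht1.eventually hps.r] with z hz
    rw [hps.Φe]
    have h1 : f (Ψ (z.1, π x₀)) = z.1 := congrArg Prod.fst hz
    have h2 : π (Ψ (z.1, π x₀)) = π x₀ := congrArg Prod.snd hz
    rw [h1, h2, add_sub_cancel]
  have hYz : ∀ᶠ z in 𝓝 ((f x₀, π x₀) : B' × B), ∀ κ,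
      L (Y (Ψ z) κ) = L (Y (Ψ (z.1, π x₀)) κ) := by
    filter_upwards [hΦz, ht2.eventually hY] with z h1 h2 κ
    rw [← h1]
    exact h2 κ
  have hZz : ∀ᶠ z in 𝓝 ((f x₀, π x₀) : B' × B), ∀ κ,
      L (Z (Ψ z) κ) = L (Z (Ψ (z.1, π x₀)) κ) := by
    filter_upwards [hΦz, ht2.eventually hZ] with z h1 h2 κ
    rw [← h1]
    exact h2 κ
  -- the map `(a, b) ↦ L Ψ(b, a)`
  have hsw : Tendsto (fun p : B × B' => ((p.2, p.1) : B' × B)) (𝓝 (π x₀, f x₀))
      (𝓝 (f x₀, π x₀)) := continuous_swap.continuousAt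
  have hdb : ∀ᶠ z in 𝓝 ((f x₀, π x₀) : B' × B),
      HasFDerivAt (fun b => L (Ψ (b, z.2))) (L.comp (Y (Ψ z))) z.1 := by
    filter_upwards [hps.der] with z hz
    have h1 : HasFDerivAt (fun b : B' => ((b, z.2) : B' × B)) (ContinuousLinearMap.inl ℂ B' B) z.1 :=
      (hasFDerivAt_id (𝕜 := ℂ) z.1).prodMk (hasFDerivAt_const (𝕜 := ℂ) z.2 z.1)
    have h2 := HasFDerivAt.comp z.1 (g := Ψ) hz h1
    have h3 := HasFDerivAt.comp z.1 (g := L) L.hasFDerivAt h2
    refine (h3.congr_fderiv ?_)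
    refine ContinuousLinearMap.ext fun κ => ?_
    show L (Y (Ψ z) κ + Z (Ψ z) 0) = L (Y (Ψ z) κ)
    rw [map_zero, add_zero]
  have hda : ∀ᶠ z in 𝓝 ((f x₀, π x₀) : B' × B),
      HasFDerivAt (fun a => L (Ψ (z.1, a))) (L.comp (Z (Ψ z))) z.2 := by
    filter_upwards [hps.der] with z hz
    have h1 : HasFDerivAt (fun b : B => ((z.1, b) : B' × B)) (ContinuousLinearMap.inr ℂ B' B) z.2 :=
      (hasFDerivAt_const (𝕜 := ℂ) z.1 z.2).prodMk (hasFDerivAt_id (𝕜 := ℂ) z.2)
    have h2 := HasFDerivAt.comp z.2 (g := Ψ) hz h1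
    have h3 := HasFDerivAt.comp z.2 (g := L) L.hasFDerivAt h2
    refine (h3.congr_fderiv ?_)
    refine ContinuousLinearMap.ext fun κ => ?_
    show L (Y (Ψ z) 0 + Z (Ψ z) κ) = L (Z (Ψ z) κ)
    rw [map_zero, zero_add]
  have hG : ∀ᶠ p in 𝓝 ((π x₀, f x₀) : B × B'), HasFDerivAt
      (fun b => L (Ψ (b, p.1)) - L (Ψ (b, π x₀))) (0 : B' →L[ℂ] H) p.2 := by
    filter_upwards [hsw.eventually hdb, (ht1.comp hsw).eventually hdb, hsw.eventually hYz]
      with p h1 h2 h3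
    have h4 := h1.sub h2
    have h5 : L.comp (Y (Ψ (p.2, p.1))) - L.comp (Y (Ψ (p.2, π x₀))) = 0 := by
      refine ContinuousLinearMap.ext fun κ => ?_
      show L (Y (Ψ (p.2, p.1)) κ) - L (Y (Ψ (p.2, π x₀)) κ) = 0
      rw [h3 κ, sub_self]
    rw [← h5]
    exact h4
  have hG2 := const_snd (G := fun p : B × B' => L (Ψ (p.2, p.1)) - L (Ψ (p.2, π x₀))) hG
  have hsw' : Tendsto (fun p : B' × B => ((p.2, p.1) : B × B')) (𝓝 (f x₀, π x₀))
      (𝓝 (π x₀, f x₀)) := continuous_swap.continuousAt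
  have hG3 : ∀ᶠ z in 𝓝 ((f x₀, π x₀) : B' × B),
      L (Ψ z) - L (Ψ (z.1, π x₀)) = L (Ψ (f x₀, z.2)) - L (Ψ (f x₀, π x₀)) :=
    hsw'.eventually hG2
  have ht3 : Tendsto (fun z : B' × B => ((f x₀, z.2) : B' × B)) (𝓝 (f x₀, π x₀))
      (𝓝 (f x₀, π x₀)) := by
    have : Continuous (fun z : B' × B => ((f x₀, z.2) : B' × B)) := by fun_prop
    exact this.continuousAt
  have hfin : ∀ᶠ z in 𝓝 ((f x₀, π x₀) : B' × B), ∀ κ, L (Z (Ψ z) κ) = L (Z x₀ κ) := by
    filter_upwards [hG3.eventually_nhds, hda, ht3.eventually hda, ht3.eventually hZz]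
      with z h1 h2 h3 h4 κ
    have ht4 : Tendsto (fun a : B => ((z.1, a) : B' × B)) (𝓝 z.2) (𝓝 z) := by
      have : Continuous (fun a : B => ((z.1, a) : B' × B)) := by fun_prop
      exact this.continuousAt
    have h5 : (fun a => L (Ψ (z.1, a))) =ᶠ[𝓝 z.2] fun a =>
        L (Ψ (f x₀, a)) + (L (Ψ (z.1, π x₀)) - L (Ψ (f x₀, π x₀))) := by
      filter_upwards [ht4.eventually h1] with a ha
      have ha' : L (Ψ (z.1, a)) - L (Ψ (z.1, π x₀)) = L (Ψ (f x₀, a)) - L (Ψ (f x₀, π x₀)) := ha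
      rw [sub_eq_iff_eq_add.1 ha']
      abel
    have h6 := (h3.add_const (L (Ψ (z.1, π x₀)) - L (Ψ (f x₀, π x₀)))).congr_of_eventuallyEq h5
    have h7 := congrArg (fun T : B →L[ℂ] H => T κ) (h2.unique h6)
    have h8 : L (Z (Ψ z) κ) = L (Z (Ψ (f x₀, z.2)) κ) := h7
    have h9 : L (Z (Ψ (f x₀, z.2)) κ) = L (Z (Ψ (f x₀, π x₀)) κ) := h4 κ
    rw [h8, h9, hps.base]
  have hgr : Tendsto (fun x => ((f x, π x) : B' × B)) (𝓝 x₀) (𝓝 (f x₀, π x₀)) :=
    hf.tendsto.prodMk_nhds π.continuous.continuousAt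
  filter_upwards [hps.l, hgr.eventually hfin] with x h1 h2 κ
  rw [h1] at h2
  exact h2 κ

variable {q r k s : ℕ}

/-- determinants of functionals -/
lemma rows_det {ι : Type*} [Fintype ι] [DecidableEq ι] (e : ι ≃ Fin (q + r))
    (Rw : ι → Cm (q + r) →L[ℂ] ℂ) (col : ι → Cm (q + r)) :
    (Matrix.of fun i j => Rw i (Pi.single (e j) 1)).det * (Matrix.of fun j l => col l (e j)).det =
      (Matrix.of fun i l => Rw i (col l)).det := by
  rw [← Matrix.det_mul]
  congr 1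
  ext i l
  rw [Matrix.mul_apply]
  show ∑ j, Rw i (Pi.single (e j) 1) * col l (e j) = Rw i (col l)
  have h1 : col l = ∑ i, col l i • (Pi.single i (1 : ℂ) : Cm (q + r)) := by
    funext i
    simp [Finset.sum_apply, Pi.single_apply]
  conv_rhs => rw [h1, map_sum, ← e.sum_comp]
  refine Finset.sum_congr rfl fun j _ => ?_
  rw [map_smul, smul_eq_mul, mul_comm]

/-- moving one row from the left block to the right block -/
def rho (i : Fin (s + 1)) : Fin s ⊕ Fin (k + 1) ≃ Fin (s + 1) ⊕ Fin k :=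
  Equiv.ofBijective (Sum.elim (fun j => Sum.inl (i.succAbove j))
    (fun b => Fin.cases (Sum.inl i) (fun b => Sum.inr b) b)) <| by
    rw [Fintype.bijective_iff_injective_and_card]
    refine ⟨?_, by simp; omega⟩
    rintro (a | a) (b | b) h
    · simpa using h
    · exfalso
      refine Fin.cases (fun h => ?_) (fun b h => ?_) b h
      · simp at h
      · simp at h
    · exfalso
      refine Fin.cases (fun h => ?_) (fun b h => ?_) a h
      · simp at h
      · simp at h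
    · revert h
      refine Fin.cases ?_ (fun a => ?_) a <;> refine Fin.cases ?_ (fun b => ?_) b <;> simp

@[simp] lemma rho_inl (i : Fin (s + 1)) (j : Fin s) :
    rho (k := k) i (Sum.inl j) = Sum.inl (i.succAbove j) := rfl

@[simp] lemma rho_inr_zero (i : Fin (s + 1)) :
    rho (k := k) i (Sum.inr 0) = Sum.inl i := rfl

@[simp] lemma rho_inr_succ (i : Fin (s + 1)) (b : Fin k) :
    rho (k := k) i (Sum.inr b.succ) = Sum.inr b := rfl

/-- the second Plücker functions -/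
lemma exists_w2 {𝓕 : Set (Cm (q + r) → ℂ)} (hpl : Plu q r 𝓕) (e : Fin s ⊕ Fin k ≃ Fin (q + r))
    {f : Fin s → Cm (q + r) → ℂ} (hf : ∀ i, f i ∈ 𝓕) (π' : Cm q →L[ℂ] Cm k) (i : Fin s)
    (β : Cm q →L[ℂ] ℂ) :
    ∃ h ∈ 𝓕, ∀ (x : Cm (q + r)) (Y : (Fin s → ℂ) →L[ℂ] Cm (q + r)) (Z : Cm k →L[ℂ] Cm (q + r)),
      (∀ κ j, fderiv ℂ (f j) x (Y κ) = κ j) → (∀ κ j, fderiv ℂ (f j) x (Z κ) = 0) →
      (∀ κ, π' (tq (Y κ)) = 0) → (∀ κ, π' (tq (Z κ)) = κ) →
      h x * (Matrix.of fun j l : Fin s ⊕ Fin k => Sum.elim (fun a => Y (Pi.single a 1) (e j))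
        (fun b => Z (Pi.single b 1) (e j)) l).det = β (tq (Y (Pi.single i 1))) := by
  rcases s with _ | s
  · exact i.elim0
  set α₀ : Fin k → Cm q →L[ℂ] ℂ := fun b => (ContinuousLinearMap.proj b).comp π' with hα₀
  refine ⟨_, hpl s (k + 1) ((rho i).trans e) (fun j => f (i.succAbove j)) (fun j => hf _)
    (Fin.cons β α₀), fun x Y Z hY hZ hYπ hZπ => ?_⟩
  set Rw : Fin (s + 1) ⊕ Fin k → Cm (q + r) →L[ℂ] ℂ := Sum.elim
    (fun j => Function.update (fun j => fderiv ℂ (f j) x) i (β.comp tqL) j)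
    (fun b => (α₀ b).comp tqL) with hRw
  have h1 : (Matrix.of fun i_1 j : Fin s ⊕ Fin (k + 1) =>
      Sum.elim (fun a => fderiv ℂ (f (i.succAbove a)) x (Pi.single (((rho i).trans e) j) 1))
        (fun b => (Fin.cons β α₀ : Fin (k + 1) → Cm q →L[ℂ] ℂ) b
          (tq (Pi.single (((rho i).trans e) j) 1))) i_1) =
      (Matrix.of fun i j => Rw i (Pi.single (e j) 1)).submatrix (rho i) (rho i) := by
    ext a b
    rw [Matrix.submatrix_apply, Matrix.of_apply, Matrix.of_apply]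
    rcases a with a | a
    · rw [rho_inl]
      show _ = Function.update (fun j => fderiv ℂ (f j) x) i (β.comp tqL) (i.succAbove a) _
      rw [Function.update_of_ne (Fin.succAbove_ne i a)]
      rfl
    · refine Fin.cases ?_ (fun a => ?_) a
      · rw [rho_inr_zero]
        show _ = Function.update (fun j => fderiv ℂ (f j) x) i (β.comp tqL) i _
        rw [Function.update_self]
        rfl
      · rw [rho_inr_succ]
        rfl
  rw [h1, Matrix.det_submatrix_equiv_self]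
  have h2 := rows_det e Rw (fun l => Sum.elim (fun a => Y (Pi.single a 1))
    (fun b => Z (Pi.single b 1)) l)
  have h3 : (Matrix.of fun j l : Fin (s + 1) ⊕ Fin k => Sum.elim (fun a => Y (Pi.single a 1) (e j))
        (fun b => Z (Pi.single b 1) (e j)) l) = Matrix.of fun j l : Fin (s + 1) ⊕ Fin k =>
        (fun l => Sum.elim (fun a => Y (Pi.single a 1)) (fun b => Z (Pi.single b 1)) l :
          Fin (s + 1) ⊕ Fin k → Cm (q + r)) l (e j) := by
    ext a b
    rcases b with b | b <;> rfl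
  rw [h3, h2]
  have h4 : (Matrix.of fun a l => Rw a ((fun l => Sum.elim (fun a => Y (Pi.single a 1))
      (fun b => Z (Pi.single b 1)) l : Fin (s + 1) ⊕ Fin k → Cm (q + r)) l)) =
      Matrix.fromBlocks ((1 : Matrix (Fin (s + 1)) (Fin (s + 1)) ℂ).updateRow i
        (fun a => β (tq (Y (Pi.single a 1)))))
        (Matrix.of fun a b => Rw (Sum.inl a) (Z (Pi.single b 1))) 0 1 := by
    ext a b
    rcases a with a | a <;> rcases b with b | b
    · rw [Matrix.fromBlocks_apply₁₁]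
      show Function.update (fun j => fderiv ℂ (f j) x) i (β.comp tqL) a (Y (Pi.single b 1)) = _
      by_cases ha : a = i
      · subst ha
        rw [Function.update_self, Matrix.updateRow_self]
        rfl
      · rw [Function.update_of_ne ha, Matrix.updateRow_ne ha, hY, Matrix.one_apply,
          Pi.single_apply]
    · rfl
    · rw [Matrix.fromBlocks_apply₂₁]
      show π' (tq (Y (Pi.single b 1))) a = 0
      rw [hYπ]
      rfl
    · rw [Matrix.fromBlocks_apply₂₂]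
      show π' (tq (Z (Pi.single b 1))) a = _
      rw [hZπ, Matrix.one_apply, Pi.single_apply]
  rw [h4, Matrix.det_fromBlocks_zero₂₁, Matrix.det_one, mul_one, det_row]

/-- **HC** (module NS (c)). -/
theorem hcStmt : HCStmt := by
  intro q r k s e hk W _ _ _ x₀ 𝓕 F h𝓕 hcl hF hFc f hf𝓕 hsurj hker htr hpl
  have hfa : ∀ i, AnalyticAt ℂ (f i) x₀ := fun i => h𝓕 _ (hf𝓕 i)
  set ff : Cm (q + r) → (Fin s → ℂ) := fun x i => f i x with hff
  have hffa : AnalyticAt ℂ ff x₀ := AnalyticAt.pi hfa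
  have hfd : ∀ᶠ x in 𝓝 x₀, ∀ ξ i, fderiv ℂ ff x ξ i = fderiv ℂ (f i) x ξ := by
    have h1 : ∀ᶠ x in 𝓝 x₀, ∀ i, AnalyticAt ℂ (f i) x :=
      eventually_all.2 fun i => (hfa i).eventually_analyticAt
    filter_upwards [h1] with x hx ξ i
    have h2 : HasFDerivAt ff (ContinuousLinearMap.pi fun i => fderiv ℂ (f i) x) x :=
      hasFDerivAt_pi.2 fun i => (hx i).differentiableAt.hasFDerivAt
    rw [h2.fderiv]
    rfl
  have hcard : s + k = q + r := by
    have := Fintype.card_congr e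
    simpa using this
  obtain ⟨π', T, hT⟩ := exists_proj (q := q) (r := r) hcard (fderiv ℂ ff x₀)
    (fun y => by
      obtain ⟨ξ, hξ⟩ := hsurj y
      refine ⟨ξ, funext fun i => ?_⟩
      rw [hfd.self_of_nhds, hξ])
    (fun ξ h1 h2 => htr ξ (fun i => by rw [← hfd.self_of_nhds, h1]; rfl) h2)
  set π : Cm (q + r) →L[ℂ] Cm k := π'.comp tqL with hπ
  obtain ⟨Φ, Z, Y, hfl, Ψ, hps⟩ := exists_fl ff π x₀ hffa T hT
  have hΦt : Tendsto Φ (𝓝 (x₀, 0)) (𝓝 x₀) := by
    have := hfl.an.continuousAt.tendsto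
    rwa [hfl.base] at this
  have hfst : Tendsto (fun p : Cm (q + r) × Cm k => p.1) (𝓝 (x₀, 0)) (𝓝 x₀) :=
    continuous_fst.continuousAt
  -- natural functions are constant in the direction of the frame
  have h1 : ∀ g ∈ 𝓕, ∀ᶠ x in 𝓝 x₀, ∀ κ, fderiv ℂ g x (Z x κ) = 0 := by
    intro g hg
    filter_upwards [hker g hg, hfl.fZ, hfd] with x a1 a2 a3 κ
    refine a1 _ fun i => ?_
    rw [← a3, a2]
    rfl
  have hgΦ : ∀ g ∈ 𝓕, ∀ᶠ p in 𝓝 ((x₀, 0) : Cm (q + r) × Cm k), g (Φ p) = g p.1 := by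
    intro g hg
    exact hfl.const ((h𝓕 g hg).eventually_analyticAt.mono fun x hx => hx.differentiableAt) (h1 g hg)
  -- the frame only depends on `t`
  have h2 : ∀ᶠ x in 𝓝 x₀, ∀ a : Fin r, fderiv ℂ Z x (ey a) = 0 :=
    eventually_all.2 fun a => vert_frame hfl hfa a (fun i => h1 _ (hcl _ (hf𝓕 i) a)) hfd
  have hZc : ∀ᶠ x in 𝓝 x₀, ContDiffAt ℂ ω Z x := hfl.anZ.eventually (by simp)
  have hZe : ∀ᶠ x in 𝓝 x₀, DifferentiableAt ℂ Z x :=
    hZc.mono fun x hx => hx.differentiableAt (by simp)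
  -- the derivative of `F` along the frame only depends on `t`
  have hFe : ∀ᶠ x in 𝓝 x₀, ContDiffAt ℂ ω F x := hF.contDiffAt.eventually (by simp)
  have hFae : ∀ a : Fin r, ∀ᶠ x in 𝓝 x₀,
      DifferentiableAt ℂ (fun x => fderiv ℂ F x (ey a)) x := by
    intro a
    filter_upwards [hFe] with x hx
    have a1 : ContDiffAt ℂ ω (fun x => fderiv ℂ F x (ey a)) x :=
      (hx.fderiv_right (m := ω) (by simp)).clm_apply contDiffAt_const
    exact a1.differentiableAt (by simp)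
  have h5a : ∀ a : Fin r, ∀ᶠ x in 𝓝 x₀, ∀ κ,
      fderiv ℂ (fun x => fderiv ℂ F x (ey a)) x (Z x κ) = 0 := by
    intro a
    have hF0 : ContDiffAt ℂ ω F x₀ := hF.contDiffAt
    have hFa : ContDiffAt ℂ ω (fun x => fderiv ℂ F x (ey a)) x₀ :=
      (hF0.fderiv_right (m := ω) (by simp)).clm_apply contDiffAt_const
    have h6 : ∀ b : Fin k, ∀ᶠ x in 𝓝 x₀,
        fderiv ℂ (fun x => fderiv ℂ F x (ey a)) x (Z x (Pi.single b 1)) = 0 := by
      intro b
      refine vec_zero ?_ fun w => ?_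
      · exact ((hFa.fderiv_right (m := ω) (by simp)).clm_apply
          (hfl.anZ.clm_apply contDiffAt_const)).analyticAt
      · filter_upwards [h1 _ (hFc a w), hFae a] with x a1 a2
        have a3 : HasFDerivAt (fun x => inner ℂ w (fderiv ℂ F x (ey a)))
            ((innerSL ℂ w).comp (fderiv ℂ (fun x => fderiv ℂ F x (ey a)) x)) x :=
          ((innerSL ℂ w).hasFDerivAt (x := fderiv ℂ F x (ey a))).comp x a2.hasFDerivAt
        have a4 := a1 (Pi.single b 1)
        rw [a3.fderiv] at a4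
        exact a4
    filter_upwards [eventually_all.2 h6] with x hx κ
    have h7 := pi_single_sum ((fderiv ℂ (fun x => fderiv ℂ F x (ey a)) x).comp (Z x)) κ
    refine h7.trans (Finset.sum_eq_zero fun b _ => ?_)
    rw [ContinuousLinearMap.comp_apply, hx b, smul_zero]
  set c : Cm (q + r) → Cm k →L[ℂ] W := fun x => (fderiv ℂ F x).comp (Z x) with hc
  have h5 : ∀ᶠ x in 𝓝 x₀, c x = c (sg x₀ (tq x)) := by
    refine const_vert ?_ ?_
    · filter_upwards [hFe, hZc] with x a1 a2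
      exact ((a1.fderiv_right (m := ω) (by simp)).clm_comp a2).differentiableAt (by simp)
    · filter_upwards [hFe, hZe, eventually_all.2 h5a, h2] with x a1 a2 a3 a4 a
      have a5 : HasFDerivAt (fderiv ℂ F) (fderiv ℂ (fderiv ℂ F) x) x :=
        ((a1.fderiv_right (m := ω) (by simp)).differentiableAt (by simp)).hasFDerivAt
      have a6 := a5.clm_comp a2.hasFDerivAt
      rw [a6.fderiv]
      ext1 κ
      show (fderiv ℂ F x) (fderiv ℂ Z x (ey a) κ) + fderiv ℂ (fderiv ℂ F) x (ey a) (Z x κ) = 0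
      rw [a4 a, ← fderiv_swap a1, a3 a κ, add_zero]
      exact map_zero _
  -- Plücker
  set D : Cm (q + r) → ℂ := fun x =>
    (Matrix.of fun j l : Fin s ⊕ Fin k => Sum.elim (fun a => Y x (Pi.single a 1) (e j))
      (fun b => Z x (Pi.single b 1) (e j)) l).det with hD
  have hYf : ∀ᶠ x in 𝓝 x₀, ∀ κ j, fderiv ℂ (f j) x (Y x κ) = κ j := by
    filter_upwards [hfl.fY, hfd] with x a1 a2 κ j
    rw [← a2, a1]
  have hZf : ∀ᶠ x in 𝓝 x₀, ∀ κ j, fderiv ℂ (f j) x (Z x κ) = 0 := by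
    filter_upwards [hfl.fZ, hfd] with x a1 a2 κ j
    rw [← a2, a1]
    rfl
  have hDc : ∀ᶠ p in 𝓝 ((x₀, 0) : Cm (q + r) × Cm k), D (Φ p) = D p.1 := by
    set P : Cm (q + r) → ℂ := fun x => (Matrix.of fun i j : Fin s ⊕ Fin k =>
        Sum.elim (fun a => fderiv ℂ (f a) x (Pi.single (e j) 1))
          (fun b => ((ContinuousLinearMap.proj b).comp π' : Cm q →L[ℂ] ℂ)
            (tq (Pi.single (e j) 1))) i).det with hP
    have hone : ∀ᶠ x in 𝓝 x₀, P x * D x = 1 := by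
      filter_upwards [hfl.fY, hfl.fZ, hfd, hfl.πZ] with x a1 a2 a3 a5
      have a4 := pl_det e (fderiv ℂ ff x) π' (Y x) (Z x) a1 a2
      have a6 : (Matrix.of fun b c : Fin k => π' (tq (Z x (Pi.single c 1))) b) = 1 := by
        ext b c
        have : π' (tq (Z x (Pi.single c 1))) = Pi.single c 1 := a5 _
        rw [Matrix.of_apply, this, Matrix.one_apply, Pi.single_apply]
      rw [a6, Matrix.det_one] at a4
      refine Eq.trans ?_ a4
      refine congrArg (· * D x) (congrArg Matrix.det ?_)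
      ext i j
      rcases i with i | i
      · exact (a3 _ _).symm
      · rfl
    filter_upwards [hgΦ _ (hpl s k e f hf𝓕 fun b => (ContinuousLinearMap.proj b).comp π'),
      hΦt.eventually hone, hfst.eventually hone] with p a1 a3 a4
    have a1' : P (Φ p) = P p.1 := a1
    have h0 : P p.1 ≠ 0 := fun h => by
      rw [h, zero_mul] at a4
      exact zero_ne_one a4
    rw [a1', ← a4] at a3
    exact mul_left_cancel₀ h0 a3
  have hYc : ∀ᶠ p in 𝓝 ((x₀, 0) : Cm (q + r) × Cm k), ∀ κ,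
      tqL (Y (Φ p) κ) = tqL (Y p.1 κ) := by
    have a0 : ∀ (i : Fin s) (j : Fin q), ∀ᶠ p in 𝓝 ((x₀, 0) : Cm (q + r) × Cm k),
        tq (Y (Φ p) (Pi.single i 1)) j = tq (Y p.1 (Pi.single i 1)) j := by
      intro i j
      obtain ⟨h, hh, hh2⟩ := exists_w2 hpl e hf𝓕 π' i (ContinuousLinearMap.proj j)
      have a1 : ∀ᶠ x in 𝓝 x₀, h x * D x = tq (Y x (Pi.single i 1)) j := by
        filter_upwards [hYf, hZf, hfl.πY, hfl.πZ] with x b1 b2 b3 b4
        exact hh2 x (Y x) (Z x) b1 b2 b3 b4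
      filter_upwards [hgΦ h hh, hDc, hΦt.eventually a1, hfst.eventually a1] with p b1 b2 b3 b4
      rw [← b3, ← b4, b1, b2]
    filter_upwards [eventually_all.2 fun i => eventually_all.2 (a0 i)] with p hp κ
    rw [pi_single_sum (Y (Φ p)), pi_single_sum (Y p.1), map_sum, map_sum]
    refine Finset.sum_congr rfl fun i _ => ?_
    rw [map_smul, map_smul]
    congr 1
    funext j
    exact hp i j
  have hZcc : ∀ᶠ p in 𝓝 ((x₀, 0) : Cm (q + r) × Cm k), ∀ κ,
      tqL (Z (Φ p) κ) = tqL (Z p.1 κ) := by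
    have a0 : ∀ (b : Fin k) (j : Fin q), ∀ᶠ p in 𝓝 ((x₀, 0) : Cm (q + r) × Cm k),
        tq (Z (Φ p) (Pi.single b 1)) j = tq (Z p.1 (Pi.single b 1)) j := by
      intro b j
      set α : Fin k → Cm q →L[ℂ] ℂ := Function.update
        (fun b => (ContinuousLinearMap.proj b).comp π') b (ContinuousLinearMap.proj j) with hα
      set P : Cm (q + r) → ℂ := fun x => (Matrix.of fun i j : Fin s ⊕ Fin k =>
        Sum.elim (fun a => fderiv ℂ (f a) x (Pi.single (e j) 1))
          (fun b => α b (tq (Pi.single (e j) 1))) i).det with hP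
      have a1 : ∀ᶠ x in 𝓝 x₀, P x * D x = tq (Z x (Pi.single b 1)) j := by
        filter_upwards [hfl.fY, hfl.fZ, hfd, hfl.πZ] with x a1 a2 a3 a5
        have a4 := pl_det e (fderiv ℂ ff x) (ContinuousLinearMap.pi α) (Y x) (Z x) a1 a2
        have a6 : (Matrix.of fun b' c : Fin k =>
            (ContinuousLinearMap.pi α) (tq (Z x (Pi.single c 1))) b') =
            (1 : Matrix (Fin k) (Fin k) ℂ).updateRow b
              (fun c => tq (Z x (Pi.single c 1)) j) := by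
          ext b' c
          rw [Matrix.of_apply, ContinuousLinearMap.pi_apply]
          by_cases hb : b' = b
          · subst hb
            rw [Matrix.updateRow_self, hα, Function.update_self]
            rfl
          · rw [Matrix.updateRow_ne hb, hα, Function.update_of_ne hb]
            have : π' (tq (Z x (Pi.single c 1))) = Pi.single c 1 := a5 _
            show π' (tq (Z x (Pi.single c 1))) b' = _
            rw [this, Matrix.one_apply, Pi.single_apply]
        rw [a6, det_row] at a4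
        refine Eq.trans ?_ a4
        refine congrArg (· * D x) (congrArg Matrix.det ?_)
        ext i j
        rcases i with i | i
        · exact (a3 _ _).symm
        · rfl
      filter_upwards [hgΦ _ (hpl s k e f hf𝓕 α), hDc, hΦt.eventually a1, hfst.eventually a1]
        with p b1 b2 b3 b4
      have b1' : P (Φ p) = P p.1 := b1
      rw [← b3, ← b4, b1', b2]
    filter_upwards [eventually_all.2 fun i => eventually_all.2 (a0 i)] with p hp κ
    rw [pi_single_sum (Z (Φ p)), pi_single_sum (Z p.1), map_sum, map_sum]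
    refine Finset.sum_congr rfl fun i _ => ?_
    rw [map_smul, map_smul]
    congr 1
    funext j
    exact hp i j
  have h4 : ∀ᶠ x in 𝓝 x₀, ∀ κ, tqL (Z x κ) = tqL (Z x₀ κ) :=
    const_frame hps hffa.continuousAt tqL hYc hZcc
  set N : Cm k →L[ℂ] Cm q := tqL.comp (Z x₀) with hN
  -- the first coordinates along the flow
  have h7 : ∀ᶠ p in 𝓝 ((x₀, 0) : Cm (q + r) × Cm k),
      tq (Φ p) = tq p.1 + N p.2 := by
    have a1 : ∀ᶠ p in 𝓝 ((x₀, 0) : Cm (q + r) × Cm k),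
        HasFDerivAt (fun b => tqL (Φ (p.1, b)) - N b) (0 : Cm k →L[ℂ] Cm q) p.2 := by
      filter_upwards [hfl.der, hΦt.eventually h4] with p b1 b2
      have b4 := ((tqL (q := q) (r := r)).hasFDerivAt.comp p.2 b1).sub N.hasFDerivAt
      have b5 : (tqL (q := q) (r := r)).comp (Z (Φ p)) - N = 0 := by
        ext1 κ
        show tqL (Z (Φ p) κ) - tqL (Z x₀ κ) = 0
        rw [b2, sub_self]
      rw [← b5]
      exact b4
    have a2 := const_snd (G := fun p : Cm (q + r) × Cm k => tqL (Φ p) - N p.2) a1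
    filter_upwards [a2, hfst.eventually hfl.zero] with p b1 b2
    rw [b2, map_zero, sub_zero] at b1
    exact sub_eq_iff_eq_add.1 b1
  -- the translation
  have hsgt : Tendsto (fun p : Cm (q + r) × Cm k => ((sg x₀ (tq p.1), p.2) : Cm (q + r) × Cm k))
      (𝓝 (x₀, 0)) (𝓝 (x₀, 0)) :=
    ((((sg_tendsto x₀).comp (tq_tendsto x₀)).comp hfst)).prodMk_nhds continuous_snd.continuousAt
  have h8 : ∀ᶠ p in 𝓝 ((x₀, 0) : Cm (q + r) × Cm k),
      F (Φ p) = F p.1 + (F (Φ (sg x₀ (tq p.1), p.2)) - F (sg x₀ (tq p.1))) := by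
    have hFd : ∀ᶠ x in 𝓝 x₀, HasFDerivAt F (fderiv ℂ F x) x :=
      hFe.mono fun x hx => (hx.differentiableAt (by simp)).hasFDerivAt
    have a1 : ∀ᶠ p in 𝓝 ((x₀, 0) : Cm (q + r) × Cm k),
        HasFDerivAt (fun b => F (Φ (p.1, b)) - F (Φ (sg x₀ (tq p.1), b)))
          (0 : Cm k →L[ℂ] W) p.2 := by
      filter_upwards [hfl.der, hsgt.eventually hfl.der, hΦt.eventually hFd,
        (hΦt.comp hsgt).eventually hFd, hΦt.eventually h5, (hΦt.comp hsgt).eventually h5, h7,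
        hsgt.eventually h7] with p b1 b2 b3 b4 b5 b6 b7 b8
      have b9 := (HasFDerivAt.comp p.2 (g := F) b3 b1).sub (HasFDerivAt.comp p.2 (g := F) b4 b2)
      have b10 : c (Φ p) - c (Φ (sg x₀ (tq p.1), p.2)) = 0 := by
        have b6' : c (Φ (sg x₀ (tq p.1), p.2)) = c (sg x₀ (tq (Φ (sg x₀ (tq p.1), p.2)))) := b6
        have b8' : tq (Φ (sg x₀ (tq p.1), p.2)) =
          tq (sg x₀ (tq p.1)) + N p.2 := b8
        rw [b5, b6', b8', b7, tq_sg, sub_self]
      rw [← b10]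
      exact b9
    have a2 := const_snd (G := fun p : Cm (q + r) × Cm k =>
      F (Φ p) - F (Φ (sg x₀ (tq p.1), p.2))) a1
    filter_upwards [a2, hfst.eventually hfl.zero,
      (((sg_tendsto x₀).comp (tq_tendsto x₀)).comp hfst).eventually hfl.zero] with p b1 b2 b3
    have b3' : Φ (sg x₀ (tq p.1), 0) = sg x₀ (tq p.1) := b3
    rw [b2, b3'] at b1
    rw [sub_eq_iff_eq_add'.1 b1]
    abel
  refine ⟨N, Φ, fun z => F (Φ (sg x₀ z.1, z.2)) - F (sg x₀ z.1), ?_, hfl.an.analyticAt, ?_,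
    hfl.zero, h7, h8, hgΦ, ?_, ?_⟩
  · intro κ κ' hκ
    have b1 : ∀ κ, π (Z x₀ κ) = κ := hfl.πZ.self_of_nhds
    rw [← b1 κ, ← b1 κ']
    exact congrArg π' hκ
  · have b1 : ContDiffAt ℂ ω (fun z : Cm q × Cm k => ((sg x₀ z.1, z.2) : Cm (q + r) × Cm k))
        (tq x₀, 0) := (((sg_contDiff x₀).comp contDiff_fst).prodMk contDiff_snd).contDiffAt
    have b2 : ContDiffAt ℂ ω (fun z : Cm q × Cm k => Φ (sg x₀ z.1, z.2)) (tq x₀, 0) := by
      refine ContDiffAt.comp (tq x₀, (0 : Cm k)) (g := Φ) ?_ b1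
      show ContDiffAt ℂ ω Φ (sg x₀ (tq x₀), 0)
      rw [sg_tq]
      exact hfl.an
    have b3 : ContDiffAt ℂ ω (fun z : Cm q × Cm k => F (Φ (sg x₀ z.1, z.2))) (tq x₀, 0) := by
      refine ContDiffAt.comp (tq x₀, (0 : Cm k)) (g := F) ?_ b2
      show ContDiffAt ℂ ω F (Φ (sg x₀ (tq x₀), 0))
      rw [sg_tq, hfl.base]
      exact hF.contDiffAt
    have b4 : ContDiffAt ℂ ω (fun z : Cm q × Cm k => F (sg x₀ z.1)) (tq x₀, 0) := by
      refine ContDiffAt.comp (tq x₀, (0 : Cm k)) (g := F) ?_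
        ((sg_contDiff x₀).comp contDiff_fst).contDiffAt
      show ContDiffAt ℂ ω F (sg x₀ (tq x₀))
      rw [sg_tq]
      exact hF.contDiffAt
    exact (b3.sub b4).analyticAt
  · have b1 : Tendsto (fun p : Cm (q + r) × Cm (q + r) =>
        ((p.1, π p.2 - π p.1) : Cm (q + r) × Cm k)) (𝓝 (x₀, x₀)) (𝓝 (x₀, 0)) := by
      have b2 : Continuous (fun p : Cm (q + r) × Cm (q + r) =>
        ((p.1, π p.2 - π p.1) : Cm (q + r) × Cm k)) := by fun_prop
      have b3 := b2.continuousAt (x := (x₀, x₀))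
      rw [ContinuousAt] at b3
      simpa using b3
    filter_upwards [hfl.leaf, b1.eventually h7] with p b2 b3 b4
    have b5 := b2 (funext b4)
    refine ⟨π p.2 - π p.1, b5, ?_⟩
    have b3' : tq (Φ (p.1, π p.2 - π p.1)) = tq p.1 + N (π p.2 - π p.1) := b3
    rw [← b5] at b3'
    exact b3'
  · filter_upwards [hfl.inj, h4, hfd] with x b1 b2 b3 ξ b4
    refine ⟨π ξ, ?_⟩
    have b5 : fderiv ℂ ff x ξ = 0 := funext fun i => (b3 ξ i).trans (b4 i)
    have b6 := b1 ξ
    rw [b5, map_zero, zero_add] at b6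
    calc tq ξ = tqL (Z x (π ξ)) := by rw [← b6]; rfl
      _ = N (π ξ) := b2 _

end Vale.Agent.P284.H286
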