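import Vale.Agent.P284.H286.Slice4
import Vale.Agent.P284.H500.ExtS

/-!
# P284 (helper286), module EXT (G): generic lines consist of good points

`sliceStmt_of`: the statement of helper500's `ExtS` from the tube lemma (T).  `slice_ae` is the same
with the relation only at the points where `dt` is onto.
-/

open Set Filter Metric Topology MeasureTheory Vale.Agent.P272.K Vale.Agent.P284.H500
open scoped NNReal ENNReal ContDiff

noncomputable section

namespace Vale.Agent.P284.H286

theorem slice_ae.{v, w} (hT : TubeStmt.{v, w}) {E : Type v} [NormedAddCommGroup E]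
    [NormedSpace ℂ E] [FiniteDimensional ℂ E] [MeasurableSpace E] [BorelSpace E] (μ : Measure E)
    [μ.IsAddHaarMeasure] {W : Type w} [NormedAddCommGroup W] [NormedSpace ℂ W] [CompleteSpace W]
    {q : ℕ} {t : E → Cm q} {S : E → E [⋀^Fin (q + 1)]→L[ℂ] W} {U : Set E}
    {e : Fin q → E} {v : E} (hU : IsOpen U) (ht : ∀ x ∈ U, AnalyticAt ℂ t x)
    (hS : ∀ x ∈ U, AnalyticAt ℂ S x) (hrel : RelW t S U) (htube : Tube μ t S U) :
    ∀ᵐ x ∂μ, ∀ z : ℂ, x + z • v ∈ U → (∃ᶠ s in 𝓝 (0 : ℂ), Om t (x + z • v + s • v) e ≠ 0) →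
      Good t S (x + z • v) :=
  slice_of μ (fun k j S' t S O' u U p e => hT E μ W q k j t S S' O' u U p e) hU ht hS hrel htube

theorem sliceStmt_of.{v, w} (hT : TubeStmt.{v, w}) : SliceStmt.{v, w} := by
  intro E _ _ _ _ _ μ _ W _ _ _ q t S U e v hU ht hS hrel htube
  exact slice_ae hT μ hU ht hS hrel htube

end Vale.Agent.P284.H286
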