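import Vale.Agent.P284.H286.Slice1

/-!
# P284 (helper286), module EXT (G): factorization, invariant null sets
-/

open Set Filter Metric Topology MeasureTheory
open scoped NNReal ENNReal ContDiff

noncomputable section

namespace Vale.Agent.P284.H286

variable {E : Type*} [NormedAddCommGroup E] [NormedSpace ℂ E]

/-- a function with zeros of infinite order at `a` -/
lemma zero_of_orders {Z : Type*} [NormedAddCommGroup Z] [NormedSpace ℂ Z] [CompleteSpace Z]
    {F : E → Z} {u : E → ℂ} {a : E} (hF : AnalyticAt ℂ F a) (hu : AnalyticAt ℂ u a) (h0 : u a = 0)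
    (h : ∀ k : ℕ, ∃ G : E → Z, AnalyticAt ℂ G a ∧ ∀ᶠ x in 𝓝 a, F x = u x ^ k • G x) :
    ∀ᶠ x in 𝓝 a, F x = 0 := by
  obtain ⟨ρ, hρ, hb⟩ := Metric.eventually_nhds_iff_ball.1 hF.eventually_analyticAt
  refine Metric.eventually_nhds_iff_ball.2 ⟨ρ, hρ, fun x hx => ?_⟩
  set w := x - a with hw
  set l : ℂ → E := fun s => a + s • w with hl
  have hla : ∀ s, AnalyticAt ℂ l s := fun s => by
    rw [hl]
    fun_prop
  have hl0 : l 0 = a := by simp [hl]
  have hlt : Tendsto l (𝓝 0) (𝓝 a) := by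
    have := (hla 0).continuousAt.tendsto
    rwa [hl0] at this
  have hFl : AnalyticAt ℂ (fun s => F (l s)) 0 :=
    AnalyticAt.comp (g := F) (by rw [hl0]; exact hF) (hla 0)
  have hord : analyticOrderAt (fun s => F (l s)) 0 = ⊤ := by
    rw [ENat.eq_top_iff_forall_ge]
    intro k
    rw [natCast_le_analyticOrderAt hFl]
    obtain ⟨G, hG, hFG⟩ := h k
    have hul : AnalyticAt ℂ (fun s => u (l s)) 0 :=
      AnalyticAt.comp (g := u) (by rw [hl0]; exact hu) (hla 0)
    have h1 : ((1 : ℕ) : ℕ∞) ≤ analyticOrderAt (fun s => u (l s)) 0 := by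
      rw [Nat.cast_one, Order.one_le_iff_ne_zero, Ne, hul.analyticOrderAt_eq_zero]
      simp [hl0, h0]
    obtain ⟨u₁, hu₁, hu₁e⟩ := (natCast_le_analyticOrderAt hul).1 h1
    refine ⟨fun s => u₁ s ^ k • G (l s), (hu₁.pow k).smul
      (AnalyticAt.comp (g := G) (by rw [hl0]; exact hG) (hla 0)), ?_⟩
    filter_upwards [hlt.eventually hFG, hu₁e] with s h2 h3
    rw [h2, h3, pow_one, smul_eq_mul, mul_pow, smul_smul]
  rw [analyticOrderAt_eq_top] at hord
  -- identity theorem on the disc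
  have hS : AnalyticOnNhd ℂ (fun s => F (l s)) (l ⁻¹' ball a ρ) := fun s hs =>
    AnalyticAt.comp (g := F) (hb _ hs) (hla s)
  have hconv : Convex ℝ (l ⁻¹' ball a ρ) := by
    intro s hs t ht α β hα hβ hαβ
    have h2 : l (α • s + β • t) = α • l s + β • l t := by
      simp only [hl, smul_add, add_smul]
      have h3 : a = α • a + β • a := by rw [← add_smul, hαβ, one_smul]
      have h4 : (α • s) • w = α • s • w := smul_assoc _ _ _
      have h5 : (β • t) • w = β • t • w := smul_assoc _ _ _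
      rw [h4, h5]
      conv_lhs => rw [h3]
      abel
    show l (α • s + β • t) ∈ ball a ρ
    rw [h2]
    exact convex_ball a ρ hs ht hα hβ hαβ
  have h1 : l 1 = x := by simp [hl, hw]
  have h2 := hS.eqOn_zero_of_preconnected_of_eventuallyEq_zero hconv.isPreconnected
    (show (0 : ℂ) ∈ l ⁻¹' ball a ρ by
      show l 0 ∈ ball a ρ
      rw [hl0]
      exact mem_ball_self hρ) hord (show (1 : ℂ) ∈ l ⁻¹' ball a ρ by
      show l 1 ∈ ball a ρ
      rw [h1]
      exact hx)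
  have h3 : F (l 1) = 0 := h2
  rwa [h1] at h3

variable [FiniteDimensional ℂ E]

/-- **factorization** -/
theorem Tr.fac {v a : E} {u : E → ℂ} (hu : Tr v u a) {Z : Type*} [NormedAddCommGroup Z]
    [NormedSpace ℂ Z] [CompleteSpace Z] {F : E → Z} (hF : AnalyticAt ℂ F a)
    (h0 : ¬ ∀ᶠ x in 𝓝 a, F x = 0) :
    ∃ (k : ℕ) (F' : E → Z), AnalyticAt ℂ F' a ∧ (∀ᶠ x in 𝓝 a, F x = u x ^ k • F' x) ∧
      ¬ ∀ᶠ x in 𝓝 a, F' (x - u x • v) = 0 := by
  by_contra hcon
  push Not at hcon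
  refine h0 (zero_of_orders hF hu.an hu.zero fun k => ?_)
  induction k with
  | zero => exact ⟨F, hF, Eventually.of_forall fun x => by rw [pow_zero, one_smul]⟩
  | succ k ih =>
    obtain ⟨G, hG, hFG⟩ := ih
    obtain ⟨G₁, hG₁, hGG⟩ := hu.div hG (hcon k G hG hFG)
    refine ⟨G₁, hG₁, ?_⟩
    filter_upwards [hFG, hGG] with x h1 h2
    rw [h1, h2, smul_smul, pow_succ]

omit [FiniteDimensional ℂ E] in
/-- the restriction to `{u = 0}`, extended along `v` -/
lemma Tr.inv {v a : E} {u : E → ℂ} (hu : Tr v u a) {Z : Type*} (F : E → Z) :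
    ∀ᶠ p in 𝓝 ((a, 0) : E × ℂ), F ((p.1 + p.2 • v) - u (p.1 + p.2 • v) • v) =
      F (p.1 - u p.1 • v) := by
  filter_upwards [hu.tr] with p hp
  rw [hp, add_smul]
  congr 1
  abel

omit [FiniteDimensional ℂ E] in
lemma Tr.an' {v a : E} {u : E → ℂ} (hu : Tr v u a) {Z : Type*} [NormedAddCommGroup Z]
    [NormedSpace ℂ Z] {F : E → Z} (hF : AnalyticAt ℂ F a) :
    AnalyticAt ℂ (fun x => F (x - u x • v)) a := by
  refine AnalyticAt.comp (g := F) (f := fun x => x - u x • v) ?_ ?_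
  · simp only [hu.zero, zero_smul, sub_zero]
    exact hF
  · exact analyticAt_id.sub (hu.an.smul analyticAt_const)

variable [MeasurableSpace E] [BorelSpace E] (μ : Measure E) [μ.IsAddHaarMeasure]

/-- The lines in the direction `v` through the zeros near `a` of an invariant holomorphic function. -/
theorem null_inv {Z : Type*} [NormedAddCommGroup Z] [NormedSpace ℂ Z] [CompleteSpace Z] {φ : E → Z} {a : E} (v : E)
    (hφ : AnalyticAt ℂ φ a) (hinv : ∀ᶠ p in 𝓝 ((a, 0) : E × ℂ), φ (p.1 + p.2 • v) = φ p.1)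
    (hne : ¬ ∀ᶠ x in 𝓝 a, φ x = 0) :
    ∃ N ∈ 𝓝 a, μ {x | ∃ z : ℂ, x + z • v ∈ N ∧ φ (x + z • v) = 0} = 0 := by
  obtain ⟨r₁, hr₁, hb1⟩ := Metric.eventually_nhds_iff_ball.1 hinv
  obtain ⟨r₂, hr₂, hb2⟩ := Metric.eventually_nhds_iff_ball.1 hφ.eventually_analyticAt
  set r := min r₁ r₂ with hr
  have hr0 : 0 < r := lt_min hr₁ hr₂
  obtain ⟨x₁, hx₁, hx₁b⟩ : ∃ x, φ x ≠ 0 ∧ x ∈ ball a (r / 4) := by
    have h1 : ∃ᶠ x in 𝓝 a, φ x ≠ 0 := by rwa [← not_eventually.trans Iff.rfl]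
    exact (h1.and_eventually (ball_mem_nhds a (by linarith))).exists
  obtain ⟨χ, -, hχ⟩ := exists_dual_vector ℂ (φ x₁) (norm_ne_zero_iff.2 hx₁)
  have hχ0 : χ (φ x₁) ≠ 0 := by
    rw [hχ]
    simpa using hx₁
  have hsub : ball x₁ (r / 2) ⊆ ball a r := by
    intro y hy
    rw [mem_ball] at *
    calc dist y a ≤ dist y x₁ + dist x₁ a := dist_triangle _ _ _
      _ < r := by linarith
  have hd : DifferentiableOn ℂ (fun x => χ (φ x)) (ball x₁ (r / 2)) := fun y hy =>
    (χ.differentiableAt.comp y (hb2 y (ball_subset_ball (min_le_right _ _) (hsub hy))).differentiableAt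
      ).differentiableWithinAt
  have hnull := Vale.Agent.P009.S.H46.null_ball μ hd hχ0
  set N₀ := {z ∈ ball x₁ (r / 2) | χ (φ z) = 0} with hN₀
  obtain ⟨D, hDc, hDd⟩ := TopologicalSpace.exists_countable_dense ℂ
  refine ⟨ball a (r / 8), ball_mem_nhds a (by linarith), ?_⟩
  have hcov : {x | ∃ z : ℂ, x + z • v ∈ ball a (r / 8) ∧ φ (x + z • v) = 0} ⊆
      ⋃ z ∈ D, (fun x => x + z • v) ⁻¹' N₀ := by
    rintro x ⟨z, hz1, hz2⟩
    set δ := min r (r / (‖v‖ + 1) / 8) with hδ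
    have hv1 : 0 < ‖v‖ + 1 := by positivity
    have hδ0 : 0 < δ := lt_min hr0 (by positivity)
    obtain ⟨z', hz'D, hz'⟩ := hDd.exists_dist_lt z hδ0
    rw [dist_comm, dist_eq_norm] at hz'
    refine mem_iUnion₂.2 ⟨z', hz'D, ?_⟩
    have h1 : x + z' • v = (x + z • v) + (z' - z) • v := by
      rw [sub_smul]; abel
    have h2 : ‖(z' - z) • v‖ < r / 8 := by
      rw [norm_smul]
      calc ‖z' - z‖ * ‖v‖ ≤ δ * ‖v‖ := by gcongr
        _ ≤ (r / (‖v‖ + 1) / 8) * ‖v‖ := by gcongr; exact min_le_right _ _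
        _ < (r / (‖v‖ + 1) / 8) * (‖v‖ + 1) := by
          gcongr
          linarith
        _ = r / 8 := by field_simp
    have h3 : x + z' • v ∈ ball x₁ (r / 2) := by
      rw [mem_ball, dist_eq_norm] at hz1 hx₁b ⊢
      calc ‖x + z' • v - x₁‖ = ‖(x + z • v - a) + (z' - z) • v - (x₁ - a)‖ := by
            rw [h1]; congr 1; abel
        _ ≤ ‖x + z • v - a‖ + ‖(z' - z) • v‖ + ‖x₁ - a‖ :=
          (norm_sub_le _ _).trans (by gcongr; exact norm_add_le _ _)
        _ < r / 2 := by linarith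
    refine ⟨h3, ?_⟩
    have h4 := hb1 (x + z • v, z' - z) (by
      rw [← ball_prod_same]
      refine ⟨ball_subset_ball ?_ hz1, ?_⟩
      · have : r ≤ r₁ := min_le_left _ _
        linarith
      · show z' - z ∈ ball (0 : ℂ) r₁
        rw [mem_ball_zero_iff]
        calc ‖z' - z‖ < δ := hz'
          _ ≤ r := min_le_left _ _
          _ ≤ r₁ := min_le_left _ _)
    show χ (φ (x + z' • v)) = 0
    have h4' : φ ((x + z • v) + (z' - z) • v) = φ (x + z • v) := h4
    rw [h1, h4', hz2, map_zero]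
  refine measure_mono_null hcov ((measure_biUnion_null_iff hDc).2 fun z _ => ?_)
  rw [measure_preimage_add_right]
  exact hnull

end Vale.Agent.P284.H286
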