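import Vale.Agent.P284.H286.Slice2
import Vale.Agent.P284.H500.ExtS
import Vale.Agent.P284.H573.NS.VS
import Vale.Agent.P284.H335.Tens

/-!
# P284 (helper286), module EXT (G): linear algebra at a point, good points
-/

open Set Filter Metric Topology MeasureTheory Vale.Agent.P272.K Vale.Agent.P284.H500
open scoped NNReal ENNReal ContDiff

noncomputable section

namespace Vale.Agent.P284.H286

variable {E : Type*} [NormedAddCommGroup E] [NormedSpace ℂ E] {q : ℕ}
  {W : Type*} [NormedAddCommGroup W] [NormedSpace ℂ W]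

/-- an alternating form which vanishes when one argument is in `K` only depends on the arguments
modulo `K` -/
lemma alt_congr {n : ℕ} (φ : E [⋀^Fin n]→L[ℂ] W) (K : Submodule ℂ E)
    (hφ : ∀ w : Fin n → E, ∀ i, w i ∈ K → φ w = 0) {w w' : Fin n → E}
    (h : ∀ i, w i - w' i ∈ K) : φ w = φ w' := by
  classical
  have key : ∀ s : Finset (Fin n), φ (s.piecewise w' w) = φ w := by
    intro s
    induction s using Finset.induction_on with
    | empty => simp
    | insert j s hj ih =>
      rw [Finset.piecewise_insert, ← ih]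
      set m := s.piecewise w' w with hm
      have h1 : m j = w j := Finset.piecewise_eq_of_notMem _ _ _ hj
      have h2 : φ (Function.update m j (w j - w' j)) = 0 :=
        hφ _ j (by rw [Function.update_self]; exact h j)
      rw [φ.map_update_sub, ← h1, Function.update_eq_self, sub_eq_zero] at h2
      exact h2.symm
  have := key Finset.univ
  rw [Finset.piecewise_univ] at this
  exact this.symm

/-- the form `w ↦ S (w, η)` -/
def lastForm (S : E [⋀^Fin (q + 1)]→L[ℂ] W) (η : E) : E [⋀^Fin q]→ₗ[ℂ] W where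
  toFun w := S (Fin.snoc w η)
  map_update_add' w i x y := by
    rename_i inst
    have hinst : inst = instDecidableEqFin q := Subsingleton.elim _ _
    subst hinst
    rw [Fin.snoc_update, Fin.snoc_update, Fin.snoc_update]
    exact S.map_update_add _ _ _ _
  map_update_smul' w i c x := by
    rename_i inst
    have hinst : inst = instDecidableEqFin q := Subsingleton.elim _ _
    subst hinst
    rw [Fin.snoc_update, Fin.snoc_update]
    exact S.map_update_smul _ _ _ _
  map_eq_zero_of_eq' w i j h hij := by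
    refine S.map_eq_zero_of_eq _ (i := i.castSucc) (j := j.castSucc) ?_ ?_
    · rw [Fin.snoc_castSucc, Fin.snoc_castSucc, h]
    · exact fun h' => hij (Fin.castSucc_injective _ h')

lemma lastForm_apply (S : E [⋀^Fin (q + 1)]→L[ℂ] W) (η : E) (w : Fin q → E) :
    lastForm S η w = S (Fin.snoc w η) := rfl

/-- the same for a (not necessarily continuous) alternating form -/
lemma alt_congr' {n : ℕ} (φ : E [⋀^Fin n]→ₗ[ℂ] W) (K : Submodule ℂ E)
    (hφ : ∀ w : Fin n → E, ∀ i, w i ∈ K → φ w = 0) {w w' : Fin n → E}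
    (h : ∀ i, w i - w' i ∈ K) : φ w = φ w' := by
  classical
  have key : ∀ s : Finset (Fin n), φ (s.piecewise w' w) = φ w := by
    intro s
    induction s using Finset.induction_on with
    | empty => simp
    | insert j s hj ih =>
      rw [Finset.piecewise_insert, ← ih]
      set m := s.piecewise w' w with hm
      have h1 : m j = w j := Finset.piecewise_eq_of_notMem _ _ _ hj
      have h2 : φ (Function.update m j (w j - w' j)) = 0 :=
        hφ _ j (by rw [Function.update_self]; exact h j)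
      rw [φ.map_update_sub, ← h1, Function.update_eq_self, sub_eq_zero] at h2
      exact h2.symm
  have := key Finset.univ
  rw [Finset.piecewise_univ] at this
  exact this.symm

lemma surj_of_Om {t : E → Cm q} {x : E} {e : Fin q → E} (h : Om t x e ≠ 0) :
    Function.Surjective (fderiv ℂ t x) := by
  set M : Matrix (Fin q) (Fin q) ℂ := Matrix.of fun i j => fderiv ℂ t x (e j) i with hM
  have hu : IsUnit M.det := (show M.det ≠ 0 from h).isUnit
  intro y
  refine ⟨∑ j, (M⁻¹.mulVec y) j • e j, ?_⟩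
  rw [map_sum]
  have h1 : M.mulVec (M⁻¹.mulVec y) = y := by
    rw [Matrix.mulVec_mulVec, Matrix.mul_nonsing_inv _ hu, Matrix.one_mulVec]
  conv_rhs => rw [← h1]
  funext i
  rw [Finset.sum_apply, Matrix.mulVec, dotProduct]
  refine Finset.sum_congr rfl fun j _ => ?_
  rw [map_smul, Pi.smul_apply, smul_eq_mul, mul_comm]
  rfl

/-- the form `S` on vertical last arguments, at a point where `dt` is onto -/
lemma snoc_formula {t : E → Cm q} {x : E} {S : E [⋀^Fin (q + 1)]→L[ℂ] W} {e : Fin q → E}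
    (he : Om t x e ≠ 0)
    (hrel : ∀ ξ : Fin (q + 1) → E, ∀ i j, i ≠ j → fderiv ℂ t x (ξ i) = 0 →
      fderiv ℂ t x (ξ j) = 0 → S ξ = 0) (w : Fin q → E) {η : E} (hη : fderiv ℂ t x η = 0) :
    Om t x e • S (Fin.snoc w η) = Om t x w • S (Fin.snoc e η) := by
  set φ := lastForm S η with hφ
  have hφK : ∀ w : Fin q → E, ∀ i,
      w i ∈ LinearMap.ker (fderiv ℂ t x : E →ₗ[ℂ] Cm q) → φ w = 0 := by
    intro w i hi
    refine hrel _ i.castSucc (Fin.last q) (Fin.castSucc_lt_last i).ne ?_ ?_
    · rw [Fin.snoc_castSucc]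
      exact hi
    · rw [Fin.snoc_last]
      exact hη
  -- Cramer
  set A : Matrix (Fin q) (Fin q) ℂ := Matrix.of fun i j =>
    (Om t x e)⁻¹ * Om t x (Function.update e i (w j)) with hA
  have h1 : ∀ j, fderiv ℂ t x (w j) = ∑ i, A i j • fderiv ℂ t x (e i) := by
    intro j
    have h2 := Om_cramer t x e (w j)
    have h3 : fderiv ℂ t x (w j) = (Om t x e)⁻¹ • (Om t x e • fderiv ℂ t x (w j)) := by
      rw [smul_smul, inv_mul_cancel₀ he, one_smul]
    rw [h3, h2, Finset.smul_sum]
    refine Finset.sum_congr rfl fun i _ => ?_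
    rw [smul_smul]
    rfl
  have h4 : φ w = φ (fun j => ∑ i, A i j • e i) := by
    refine alt_congr' φ _ hφK fun j => ?_
    show fderiv ℂ t x (w j - ∑ i, A i j • e i) = 0
    rw [map_sub, map_sum, h1 j]
    simp
  have h5 : φ (fun j => ∑ i, A i j • e i) = A.det • φ e := H335.alt_sum_det φ A e
  have h6 : Om t x w = A.det * Om t x e := by
    rw [Om, Om, mul_comm, ← Matrix.det_mul]
    congr 1
    ext i j
    rw [Matrix.mul_apply, Matrix.of_apply, h1 j, Finset.sum_apply]
    refine Finset.sum_congr rfl fun l _ => ?_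
    rw [Pi.smul_apply, smul_eq_mul, Matrix.of_apply, mul_comm]
  rw [← lastForm_apply, ← lastForm_apply, ← hφ, h4, h5, h6, smul_smul, mul_comm]

/-- an alternating-form valued function is analytic if its values are -/
lemma analyticAt_alt [FiniteDimensional ℂ E] {E' : Type*} [NormedAddCommGroup E']
    [NormedSpace ℂ E'] {n : ℕ} {O : E' → E [⋀^Fin n]→L[ℂ] ℂ} {a : E'}
    (h : ∀ ξ, AnalyticAt ℂ (fun x => O x ξ) a) : AnalyticAt ℂ O a := by
  set b := Module.finBasis ℂ E with hb
  set ev : (E [⋀^Fin n]→L[ℂ] ℂ) →ₗ[ℂ] ((Fin n → Fin (Module.finrank ℂ E)) → ℂ) :=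
    { toFun := fun A i => A fun j => b (i j)
      map_add' := fun A B => rfl
      map_smul' := fun c A => rfl } with hev
  have hker : LinearMap.ker ev = ⊥ := by
    rw [LinearMap.ker_eq_bot']
    intro A hA
    have h1 : A.toAlternatingMap.toMultilinearMap = 0 := by
      refine Module.Basis.ext_multilinear (fun _ => b) fun i => ?_
      exact congrFun hA i
    ext ξ
    exact congrArg (fun m : MultilinearMap ℂ (fun _ : Fin n => E) ℂ => m ξ) h1
  obtain ⟨L, hL⟩ := ev.exists_leftInverse_of_injective hker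
  have h1 : O = fun x => (LinearMap.toContinuousLinearMap L) (ev (O x)) := by
    funext x
    exact (congrArg (fun T : (E [⋀^Fin n]→L[ℂ] ℂ) →ₗ[ℂ] (E [⋀^Fin n]→L[ℂ] ℂ) => T (O x)) hL).symm
  rw [h1]
  refine (ContinuousLinearMap.analyticAt _ _).comp ?_
  exact AnalyticAt.pi fun i => h _

/-- `dt_1 ∧ ⋯ ∧ dt_q` as a continuous alternating map -/
def OmC (t : E → Cm q) (x : E) : E [⋀^Fin q]→L[ℂ] ℂ :=
  { (Matrix.detRowAlternating : Cm q [⋀^Fin q]→ₗ[ℂ] ℂ).compLinearMap
      (fderiv ℂ t x : E →ₗ[ℂ] Cm q) with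
    cont := by
      show Continuous fun w : Fin q → E =>
        Matrix.det (fun i => fderiv ℂ t x (w i) : Matrix (Fin q) (Fin q) ℂ)
      refine Continuous.matrix_det ?_
      fun_prop }

lemma OmC_apply (t : E → Cm q) (x : E) (ξ : Fin q → E) : OmC t x ξ = Om t x ξ := by
  show Matrix.det (fun i => fderiv ℂ t x (ξ i) : Matrix (Fin q) (Fin q) ℂ) = _
  rw [Om, ← Matrix.det_transpose]
  rfl

lemma analyticAt_Om {t : E → Cm q} {a : E} (ht : AnalyticAt ℂ t a) (ξ : Fin q → E) :
    AnalyticAt ℂ (fun x => Om t x ξ) a := by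
  have h1 : (fun x => Om t x ξ) = fun x => ∑ σ : Equiv.Perm (Fin q),
      (Equiv.Perm.sign σ : ℂ) * ∏ i, fderiv ℂ t x (ξ i) (σ i) := by
    funext y
    rw [Om, Matrix.det_apply']
    rfl
  rw [h1]
  refine Finset.analyticAt_fun_sum _ fun σ _ => analyticAt_const.mul ?_
  refine Finset.analyticAt_fun_prod _ fun i _ => ?_
  have h2 : AnalyticAt ℂ (fun x => fderiv ℂ t x (ξ i)) a :=
    (ContinuousLinearMap.apply ℂ (Cm q) (ξ i)).analyticAt _ |>.fun_comp ht.fderiv
  exact (ContinuousLinearMap.proj (σ i) : Cm q →L[ℂ] ℂ).analyticAt _ |>.fun_comp h2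

lemma analyticAt_OmC [FiniteDimensional ℂ E] {t : E → Cm q} {a : E} (ht : AnalyticAt ℂ t a) :
    AnalyticAt ℂ (OmC t) a := by
  refine analyticAt_alt fun ξ => ?_
  simp only [OmC_apply]
  exact analyticAt_Om ht ξ

/-- The relation used here: `S` vanishes on two vertical vectors, at the points where `dt` is onto. -/
def RelW (t : E → Cm q) (S : E → E [⋀^Fin (q + 1)]→L[ℂ] W) (U : Set E) : Prop :=
  ∀ x ∈ U, Function.Surjective (fderiv ℂ t x) → ∀ ξ : Fin (q + 1) → E, ∀ i j, i ≠ j →
    fderiv ℂ t x (ξ i) = 0 → fderiv ℂ t x (ξ j) = 0 → S x ξ = 0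

/-- **Good points**: if near `p`, `dt_1 ∧ ⋯ ∧ dt_q = u^k O'` and `S = u^j S'`, `k ≤ j`, `O' p ≠ 0`. -/
theorem good_of [FiniteDimensional ℂ E] {t : E → Cm q}
    {S S' : E → E [⋀^Fin (q + 1)]→L[ℂ] W} {O' : E → E [⋀^Fin q]→L[ℂ] ℂ} {u : E → ℂ} {U : Set E}
    {p : E} {e : Fin q → E} {k j : ℕ} (hU : IsOpen U) (hp : p ∈ U) (hu : AnalyticAt ℂ u p)
    (hO' : AnalyticAt ℂ O' p) (he : O' p e ≠ 0)
    (hO : ∀ᶠ x in 𝓝 p, ∀ ξ, Om t x ξ = u x ^ k * O' x ξ)
    (hS' : AnalyticAt ℂ S' p) (hS : ∀ᶠ x in 𝓝 p, S x = u x ^ j • S' x) (hkj : k ≤ j)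
    (hrel : RelW t S U) : Good t S p := by
  set b := Module.finBasis ℂ E with hb
  set θ : E → Fin (Module.finrank ℂ E) → W := fun x i =>
    (u x ^ (j - k) * (O' x e)⁻¹) • S' x (Fin.snoc e (b i)) with hθ
  set Θ : E → E →L[ℂ] W := fun x => ∑ i, (LinearMap.toContinuousLinearMap (b.coord i)).smulRight
    (θ x i) with hΘ
  have hΘa : ∀ x η, Θ x η = (u x ^ (j - k) * (O' x e)⁻¹) • S' x (Fin.snoc e η) := by
    intro x η
    set M : E →L[ℂ] W := (S' x).toContinuousLinearMap (Fin.snoc e (0 : E)) (Fin.last q) with hM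
    have hMa : ∀ η : E, M η = S' x (Fin.snoc e η) := by
      intro η
      show S' x (Function.update (Fin.snoc e (0 : E)) (Fin.last q) η) = _
      rw [Fin.update_snoc_last]
    have h1 : Θ x η = ∑ i, b.coord i η • θ x i := by
      rw [hΘ]
      simp
    rw [h1, ← hMa η]
    conv_rhs => rw [← b.sum_repr η, map_sum, Finset.smul_sum]
    refine Finset.sum_congr rfl fun i _ => ?_
    rw [map_smul, hMa, smul_comm]
    rfl
  refine ⟨Θ, ?_, ?_⟩
  · refine Finset.analyticAt_fun_sum _ fun i _ => ?_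
    have h1 : AnalyticAt ℂ (fun x => θ x i) p := by
      have h2 : AnalyticAt ℂ (fun x => O' x e) p := analyticAt_apply hO' e
      have h3 : AnalyticAt ℂ (fun x => S' x (Fin.snoc e (b i))) p :=
        (ContinuousAlternatingMap.apply ℂ E W (Fin.snoc e (b i))).analyticAt _ |>.fun_comp hS'
      exact ((hu.pow _).mul (h2.inv he)).smul h3
    exact ((ContinuousLinearMap.smulRightL ℂ E W
      (LinearMap.toContinuousLinearMap (b.coord i))).analyticAt _).fun_comp h1
  · have hne : ∀ᶠ x in 𝓝 p, O' x e ≠ 0 := (analyticAt_apply hO' e).continuousAt.eventually_ne he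
    filter_upwards [hO, hS, hne, hU.mem_nhds hp] with x h1 h2 h3 hxU w η hη
    rw [hΘa]
    by_cases hux : u x ^ k = 0
    · have hk : k ≠ 0 := by
        rintro rfl
        simp at hux
      have hu0 : u x = 0 := by
        by_contra h
        exact pow_ne_zero k h hux
      have hj : j ≠ 0 := by omega
      have h4 : S x = 0 := by rw [h2, hu0, zero_pow hj, zero_smul]
      rw [h4, h1 w, hux, zero_mul, zero_smul]
      rfl
    · have h4 : Om t x e ≠ 0 := by
        rw [h1 e]
        exact mul_ne_zero hux h3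
      have h5 := snoc_formula (S := S x) h4 (hrel x hxU (surj_of_Om h4)) w hη
      have h6 : S x (Fin.snoc w η) = (Om t x e)⁻¹ • (Om t x e • S x (Fin.snoc w η)) := by
        rw [smul_smul, inv_mul_cancel₀ h4, one_smul]
      rw [h6, h5]
      have h7 : S x (Fin.snoc e η) = u x ^ j • S' x (Fin.snoc e η) := by
        rw [h2]
        rfl
      rw [h7, h1 e, smul_smul, smul_smul, smul_smul]
      congr 1
      have h8 : u x ^ j = u x ^ k * u x ^ (j - k) := by
        rw [← pow_add]
        congr 1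
        omega
      rw [h8]
      field_simp

end Vale.Agent.P284.H286
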