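import Vale.Agent.P284.H286.Slice3

/-!
# P284 (helper286), module EXT (G): generic lines consist of good points
-/

open Set Filter Metric Topology MeasureTheory Vale.Agent.P272.K Vale.Agent.P284.H500
open scoped NNReal ENNReal ContDiff

noncomputable section

namespace Vale.Agent.P284.H286

open Vale.Agent.P284.H573.NS

variable {E : Type*} [NormedAddCommGroup E] [NormedSpace ℂ E] {q : ℕ}
  {W : Type*} [NormedAddCommGroup W] [NormedSpace ℂ W]

/-- the derivative of a transversal coordinate -/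
lemma Tr.fderiv_ne {v a : E} {u : E → ℂ} (hu : Tr v u a) :
    ∀ᶠ p in 𝓝 a, fderiv ℂ u p ≠ 0 := by
  have h1 : ∀ᶠ p in 𝓝 a, ∀ᶠ s in 𝓝 (0 : ℂ), u (p + s • v) = u p + s := by
    have h2 : ∀ᶠ p in 𝓝 a ×ˢ 𝓝 (0 : ℂ), u (p.1 + p.2 • v) = u p.1 + p.2 := by
      rw [← nhds_prod_eq]
      exact hu.tr
    exact h2.curry
  filter_upwards [h1, hu.an.eventually_analyticAt] with p h2 h3 h0
  have h4 : HasDerivAt (fun s : ℂ => u (p + s • v)) (fderiv ℂ u p v) 0 := by
    have h5 : HasFDerivAt u (fderiv ℂ u p) (p + (0 : ℂ) • v) := by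
      rw [zero_smul, add_zero]
      exact h3.differentiableAt.hasFDerivAt
    have h6 : HasDerivAt (fun s : ℂ => p + s • v) v 0 := by
      have := ((hasDerivAt_id (0 : ℂ)).smul_const v).const_add p
      simpa using this
    exact h5.comp_hasDerivAt 0 h6
  have h7 : HasDerivAt (fun s : ℂ => u (p + s • v)) 1 0 := by
    have : HasDerivAt (fun s : ℂ => u p + s) 1 0 := (hasDerivAt_id (0 : ℂ)).const_add (u p)
    exact this.congr_of_eventuallyEq h2
  have h8 := h4.unique h7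
  rw [h0] at h8
  exact zero_ne_one h8

variable [FiniteDimensional ℂ E] [MeasurableSpace E] [BorelSpace E]

/-- the bad points of the line argument -/
def Bad (t : E → Cm q) (S : E → E [⋀^Fin (q + 1)]→L[ℂ] W) (U : Set E) (e : Fin q → E) (v : E)
    (ν : ℕ) : Set E :=
  {y | y ∈ U ∧ ¬ Good t S y ∧ (Dv v)^[ν] (fun x => Om t x e) y = 0 ∧
    (Dv v)^[ν + 1] (fun x => Om t x e) y ≠ 0}

omit [MeasurableSpace E] [BorelSpace E] in
/-- the bad points are covered by the bad points of finite order -/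
lemma mem_bad [CompleteSpace W] {t : E → Cm q} {S : E → E [⋀^Fin (q + 1)]→L[ℂ] W} {U : Set E}
    {e : Fin q → E} {v : E} (hU : IsOpen U) (ht : ∀ x ∈ U, AnalyticAt ℂ t x)
    (hS : ∀ x ∈ U, AnalyticAt ℂ S x) (hrel : RelW t S U) {y : E} (hy : y ∈ U)
    (hf : ∃ᶠ s in 𝓝 (0 : ℂ), Om t (y + s • v) e ≠ 0) (hg : ¬ Good t S y) :
    ∃ ν, y ∈ Bad t S U e v ν := by
  set f : E → ℂ := fun x => Om t x e with hfdef
  have hfa : AnalyticAt ℂ f y := analyticAt_Om (ht y hy) e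
  -- `f y = 0`
  have hf0 : f y = 0 := by
    by_contra h0
    refine hg (good_of (u := fun _ => 1) (k := 0) (j := 0) (O' := OmC t) (S' := S) (e := e) hU hy
      analyticAt_const (analyticAt_OmC (ht y hy)) ?_ ?_ (hS y hy) ?_ le_rfl hrel)
    · rw [OmC_apply]
      exact h0
    · exact Eventually.of_forall fun x ξ => by rw [pow_zero, one_mul, OmC_apply]
    · exact Eventually.of_forall fun x => by rw [pow_zero, one_smul]
  -- some derivative does not vanish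
  have hex : ∃ ν, (Dv v)^[ν] f y ≠ 0 := by
    by_contra hcon
    push Not at hcon
    have hl : AnalyticAt ℂ (fun s : ℂ => f (y + s • v)) 0 := by
      refine AnalyticAt.comp (g := f) (f := fun s : ℂ => y + s • v) ?_ (by fun_prop)
      simpa using hfa
    have h1 : analyticOrderAt (fun s : ℂ => f (y + s • v)) 0 = ⊤ := by
      rw [ENat.eq_top_iff_forall_ge]
      intro m
      rw [natCast_le_analyticOrderAt_iff_iteratedDeriv_eq_zero hl]
      intro i _
      rw [iteratedDeriv_line hfa, hcon]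
    rw [analyticOrderAt_eq_top] at h1
    exact hf (h1.mono fun s hs h => h hs)
  classical
  set ν := Nat.find hex with hν
  have h1 : (Dv v)^[ν] f y ≠ 0 := Nat.find_spec hex
  have h2 : ν ≠ 0 := by
    intro h
    rw [h] at h1
    exact h1 hf0
  obtain ⟨m, hm⟩ := Nat.exists_eq_succ_of_ne_zero h2
  refine ⟨m, hy, hg, ?_, ?_⟩
  · by_contra h3
    have := Nat.find_min' hex h3
    omega
  · rw [hm] at h1
    exact h1

/-- local nullity -/
theorem null_bad (μ : Measure E) [μ.IsAddHaarMeasure] [CompleteSpace W]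
    (hT : ∀ (k j : ℕ) (S' : E → E [⋀^Fin (q + 1)]→L[ℂ] W) (t : E → Cm q)
      (S : E → E [⋀^Fin (q + 1)]→L[ℂ] W) (O' : E → E [⋀^Fin q]→L[ℂ] ℂ) (u : E → ℂ) (U : Set E)
      (p : E) (e : Fin q → E), IsOpen U → p ∈ U → AnalyticAt ℂ t p → AnalyticAt ℂ u p → u p = 0 →
      fderiv ℂ u p ≠ 0 → AnalyticAt ℂ O' p → O' p e ≠ 0 →
      (∀ᶠ x in 𝓝 p, ∀ ξ, Om t x ξ = u x ^ k * O' x ξ) →
      ContinuousAt S' p → S' p ≠ 0 → (∀ᶠ x in 𝓝 p, S x = u x ^ j • S' x) → Tube μ t S U → k ≤ j)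
    {t : E → Cm q} {S : E → E [⋀^Fin (q + 1)]→L[ℂ] W} {U : Set E}
    {e : Fin q → E} {v : E} (hU : IsOpen U) (ht : ∀ x ∈ U, AnalyticAt ℂ t x)
    (hS : ∀ x ∈ U, AnalyticAt ℂ S x) (hrel : RelW t S U) (htube : Tube μ t S U) (ν : ℕ) {a : E}
    (ha : a ∈ Bad t S U e v ν) :
    ∃ N ∈ 𝓝 a, μ {x | ∃ z : ℂ, x + z • v ∈ N ∧ x + z • v ∈ Bad t S U e v ν} = 0 := by
  obtain ⟨haU, -, ha0, ha1⟩ := ha
  set f : E → ℂ := fun x => Om t x e with hfdef
  have hfa : AnalyticAt ℂ f a := analyticAt_Om (ht a haU) e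
  have hga : AnalyticAt ℂ ((Dv v)^[ν] f) a := Dv_iter_an hfa ν
  obtain ⟨u, hu, hu0⟩ := exists_tr hga ha0 (by
    rw [Function.iterate_succ_apply'] at ha1
    exact ha1)
  -- the factorization of `Om`
  have hOm : AnalyticAt ℂ (OmC t) a := analyticAt_OmC (ht a haU)
  have hOm0 : ¬ ∀ᶠ x in 𝓝 a, OmC t x = 0 := by
    intro h0
    have h1 : f =ᶠ[𝓝 a] fun _ => 0 := by
      filter_upwards [h0] with x hx
      show Om t x e = 0
      rw [← OmC_apply, hx]
      rfl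
    have h2 := (Dv_iter_congr (η := v) h1 (ν + 1)).self_of_nhds
    apply ha1
    rw [h2]
    have h3 : ∀ m, (Dv v)^[m] (fun _ : E => (0 : ℂ)) = fun _ => 0 := by
      intro m
      induction m with
      | zero => rfl
      | succ m ih =>
        rw [Function.iterate_succ_apply', ih]
        funext x
        simp [Dv]
    rw [h3]
  obtain ⟨k, O', hO', hOO, hO0⟩ := hu.fac hOm hOm0
  by_cases hS0 : ∀ᶠ x in 𝓝 a, S x = 0
  · -- `S = 0` near `a`: all points are good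
    obtain ⟨N, hN, hNo⟩ : ∃ N ∈ 𝓝 a, ∀ y ∈ N, Good t S y := by
      refine ⟨{y | ∀ᶠ x in 𝓝 y, S x = 0}, hS0.eventually_nhds, fun y hy => ?_⟩
      refine ⟨fun _ => 0, analyticAt_const, ?_⟩
      have hy' : ∀ᶠ x in 𝓝 y, S x = 0 := hy
      filter_upwards [hy'] with x hx w η _
      rw [hx]
      simp
    refine ⟨N, hN, ?_⟩
    have : {x | ∃ z : ℂ, x + z • v ∈ N ∧ x + z • v ∈ Bad t S U e v ν} = ∅ := by
      ext x
      simp only [mem_ofPred_eq, mem_empty_iff_false, iff_false, not_exists, not_and]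
      intro z h1 h2
      exact h2.2.1 (hNo _ h1)
    rw [this]
    exact measure_empty
  · obtain ⟨j, S', hS', hSS, hS0'⟩ := hu.fac (hS a haU) hS0
    obtain ⟨N₁, hN₁, hnull₁⟩ := null_inv μ v (hu.an' hO') (hu.inv O') hO0
    obtain ⟨N₂, hN₂, hnull₂⟩ := null_inv μ v (hu.an' hS') (hu.inv S') hS0'
    -- the good neighbourhood
    have hgood : ∀ᶠ y in 𝓝 a, u y = 0 → O' y ≠ 0 → S' y ≠ 0 → Good t S y := by
      filter_upwards [hU.mem_nhds haU, hu.an.eventually_analyticAt, hu.fderiv_ne,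
        hO'.eventually_analyticAt, hOO.eventually_nhds, hS'.eventually_analyticAt,
        hSS.eventually_nhds] with y hyU h1 h2 h3 h4 h5 h6 huy hOy hSy
      obtain ⟨e', he'⟩ : ∃ e', O' y e' ≠ 0 := by
        by_contra hcon
        push Not at hcon
        exact hOy (ContinuousAlternatingMap.ext hcon)
      have h7 : ∀ᶠ x in 𝓝 y, ∀ ξ, Om t x ξ = u x ^ k * O' x ξ := by
        filter_upwards [h4] with x hx ξ
        rw [← OmC_apply, hx]
        rfl
      have hkj : k ≤ j := hT k j S' t S O' u U y e' hU hyU (ht y hyU) h1 huy h2 h3 he' h7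
        h5.continuousAt hSy h6 htube
      exact good_of hU hyU h1 h3 he' h7 h5 h6 hkj hrel
    refine ⟨N₁ ∩ N₂ ∩ {y | (u y = 0 → O' y ≠ 0 → S' y ≠ 0 → Good t S y) ∧
      ((Dv v)^[ν] f y = 0 → u y = 0)}, inter_mem (inter_mem hN₁ hN₂) (hgood.and hu0), ?_⟩
    refine measure_mono_null ?_ (measure_union_null hnull₁ hnull₂)
    rintro x ⟨z, ⟨⟨h1, h2⟩, h3, h4⟩, h5⟩
    obtain ⟨-, h6, h7, -⟩ := h5
    have h8 := h4 h7
    by_cases h9 : O' (x + z • v) = 0
    · left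
      refine ⟨z, h1, ?_⟩
      show O' ((x + z • v) - u (x + z • v) • v) = 0
      rw [h8, zero_smul, sub_zero, h9]
    · right
      refine ⟨z, h2, ?_⟩
      show S' ((x + z • v) - u (x + z • v) • v) = 0
      rw [h8, zero_smul, sub_zero]
      by_contra h10
      exact h6 (h3 h8 h9 h10)

/-- **(G)** -/
theorem slice_of (μ : Measure E) [μ.IsAddHaarMeasure] [CompleteSpace W]
    (hT : ∀ (k j : ℕ) (S' : E → E [⋀^Fin (q + 1)]→L[ℂ] W) (t : E → Cm q)
      (S : E → E [⋀^Fin (q + 1)]→L[ℂ] W) (O' : E → E [⋀^Fin q]→L[ℂ] ℂ) (u : E → ℂ) (U : Set E)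
      (p : E) (e : Fin q → E), IsOpen U → p ∈ U → AnalyticAt ℂ t p → AnalyticAt ℂ u p → u p = 0 →
      fderiv ℂ u p ≠ 0 → AnalyticAt ℂ O' p → O' p e ≠ 0 →
      (∀ᶠ x in 𝓝 p, ∀ ξ, Om t x ξ = u x ^ k * O' x ξ) →
      ContinuousAt S' p → S' p ≠ 0 → (∀ᶠ x in 𝓝 p, S x = u x ^ j • S' x) → Tube μ t S U → k ≤ j)
    {t : E → Cm q} {S : E → E [⋀^Fin (q + 1)]→L[ℂ] W} {U : Set E}
    {e : Fin q → E} {v : E} (hU : IsOpen U) (ht : ∀ x ∈ U, AnalyticAt ℂ t x)
    (hS : ∀ x ∈ U, AnalyticAt ℂ S x) (hrel : RelW t S U) (htube : Tube μ t S U) :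
    ∀ᵐ x ∂μ, ∀ z : ℂ, x + z • v ∈ U → (∃ᶠ s in 𝓝 (0 : ℂ), Om t (x + z • v + s • v) e ≠ 0) →
      Good t S (x + z • v) := by
  have hcount : ∀ ν, μ {x | ∃ z : ℂ, x + z • v ∈ Bad t S U e v ν} = 0 := by
    intro ν
    choose! N hN hnull using fun a (ha : a ∈ Bad t S U e v ν) =>
      null_bad μ hT hU ht hS hrel htube ν ha
    obtain ⟨C, hC, hCc, hCB⟩ := TopologicalSpace.countable_cover_nhdsWithin
      (s := Bad t S U e v ν) (f := N) fun a ha => mem_nhdsWithin_of_mem_nhds (hN a ha)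
    refine measure_mono_null ?_ ((measure_biUnion_null_iff hCc).2 fun a ha => hnull a (hC ha))
    rintro x ⟨z, hz⟩
    obtain ⟨a, ha, hza⟩ := mem_iUnion₂.1 (hCB hz)
    exact mem_iUnion₂.2 ⟨a, ha, z, hza, hz⟩
  rw [ae_iff]
  refine measure_mono_null ?_ (measure_iUnion_null hcount)
  intro x hx
  simp only [mem_ofPred_eq, not_forall] at hx
  obtain ⟨z, h1, h2, h3⟩ := hx
  obtain ⟨ν, hν⟩ := mem_bad hU ht hS hrel h1 h2 h3
  exact mem_iUnion.2 ⟨ν, z, hν⟩

end Vale.Agent.P284.H286
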