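import Vale.Agent.P284.H286.Flow

/-!
# P284 (helper286), module NS (c): functions on `ℂ^(q+r)` which only depend on `t`
-/

open scoped Topology ContDiff
open Filter Metric Set

noncomputable section

namespace Vale.Agent.P284.H286

open Vale.Agent.P272.K Vale.Agent.P284.H625

variable {q r : ℕ}

/-- `tq` as a linear map -/
def tqL : Cm (q + r) →L[ℂ] Cm q :=
  ContinuousLinearMap.pi fun j => ContinuousLinearMap.proj (Fin.castAdd r j)

@[simp] lemma tqL_apply (x : Cm (q + r)) : tqL x = tq x := rfl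

/-- the last `r` coordinates -/
def yqL : Cm (q + r) →L[ℂ] Cm r :=
  ContinuousLinearMap.pi fun j => ContinuousLinearMap.proj (Fin.natAdd q j)

/-- the inclusion of `ℂ^q` -/
def et : Cm q →L[ℂ] Cm (q + r) :=
  ContinuousLinearMap.pi fun i => Fin.addCases (fun j => ContinuousLinearMap.proj j) (fun _ => 0) i

/-- the inclusion of `ℂ^r` -/
def eyL : Cm r →L[ℂ] Cm (q + r) :=
  ContinuousLinearMap.pi fun i => Fin.addCases (fun _ => 0) (fun j => ContinuousLinearMap.proj j) i

lemma et_castAdd (t : Cm q) (j : Fin q) : (et t : Cm (q + r)) (Fin.castAdd r j) = t j := by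
  simp [et]

lemma et_natAdd (t : Cm q) (j : Fin r) : (et t : Cm (q + r)) (Fin.natAdd q j) = 0 := by
  simp [et]

lemma eyL_castAdd (y : Cm r) (j : Fin q) : (eyL y : Cm (q + r)) (Fin.castAdd r j) = 0 := by
  simp [eyL]

lemma eyL_natAdd (y : Cm r) (j : Fin r) : (eyL y : Cm (q + r)) (Fin.natAdd q j) = y j := by
  simp [eyL]

@[simp] lemma tq_et (t : Cm q) : tq (et t : Cm (q + r)) = t := funext fun j => et_castAdd t j

@[simp] lemma tq_eyL (y : Cm r) : tq (eyL y : Cm (q + r)) = 0 := funext fun j => eyL_castAdd y j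

lemma split_ty (x : Cm (q + r)) : x = et (tq x) + eyL (yqL x) := by
  funext i
  refine Fin.addCases (fun j => ?_) (fun j => ?_) i
  · rw [Pi.add_apply, et_castAdd, eyL_castAdd, add_zero]
    rfl
  · rw [Pi.add_apply, et_natAdd, eyL_natAdd, zero_add]
    rfl

lemma eyL_eq_sum (y : Cm r) : (eyL y : Cm (q + r)) = ∑ a, y a • ey a := by
  funext i
  rw [Finset.sum_apply]
  refine Fin.addCases (fun j => ?_) (fun j => ?_) i
  · rw [eyL_castAdd]
    refine (Finset.sum_eq_zero fun a _ => ?_).symm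
    have : (Fin.castAdd r j : Fin (q + r)) ≠ Fin.natAdd q a := by
      intro h
      have := congrArg Fin.val h
      simp at this
      omega
    simp [ey, this]
  · rw [eyL_natAdd, Finset.sum_eq_single j]
    · simp [ey]
    · intro a _ ha
      have : (Fin.natAdd q j : Fin (q + r)) ≠ Fin.natAdd q a := by
        intro h
        exact ha (Fin.natAdd_injective _ _ h).symm
      simp [ey, this]
    · intro h
      exact absurd (Finset.mem_univ _) h

/-- the section `t ↦ (t, y(x₀))` -/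
def sg (x₀ : Cm (q + r)) (t : Cm q) : Cm (q + r) := et t + eyL (yqL x₀)

lemma sg_tq (x₀ : Cm (q + r)) : sg x₀ (tq x₀) = x₀ := (split_ty x₀).symm

@[simp] lemma tq_sg (x₀ : Cm (q + r)) (t : Cm q) : tq (sg x₀ t) = t := by
  have h : tq (sg x₀ t) = tqL (et t + eyL (yqL x₀)) := rfl
  rw [h, map_add, tqL_apply, tqL_apply, tq_et, tq_eyL, add_zero]

lemma sg_contDiff (x₀ : Cm (q + r)) : ContDiff ℂ ω (sg x₀) :=
  et.contDiff.add contDiff_const

lemma sg_tendsto (x₀ : Cm (q + r)) : Tendsto (sg x₀) (𝓝 (tq x₀)) (𝓝 x₀) := by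
  have := (sg_contDiff x₀).continuous.continuousAt (x := tq x₀)
  rw [ContinuousAt, sg_tq] at this
  exact this

lemma tq_tendsto (x₀ : Cm (q + r)) : Tendsto tq (𝓝 x₀) (𝓝 (tq x₀)) :=
  (tqL (q := q) (r := r)).continuous.continuousAt

/-- A function which is constant in the direction of the fibres of `t`. -/
lemma const_vert {H : Type*} [NormedAddCommGroup H] [NormedSpace ℂ H] {g : Cm (q + r) → H}
    {x₀ : Cm (q + r)} (hg : ∀ᶠ x in 𝓝 x₀, DifferentiableAt ℂ g x)
    (hv : ∀ᶠ x in 𝓝 x₀, ∀ a : Fin r, fderiv ℂ g x (ey a) = 0) :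
    ∀ᶠ x in 𝓝 x₀, g x = g (sg x₀ (tq x)) := by
  have h0 : Tendsto (fun p : Cm q × Cm r => (et p.1 + eyL p.2 : Cm (q + r)))
      (𝓝 (tq x₀, yqL x₀)) (𝓝 x₀) := by
    have h1 : Continuous (fun p : Cm q × Cm r => (et p.1 + eyL p.2 : Cm (q + r))) := by fun_prop
    have h2 := h1.continuousAt (x := (tq x₀, yqL x₀))
    rw [ContinuousAt] at h2
    rwa [← split_ty] at h2
  have h1 : ∀ᶠ p in 𝓝 ((tq x₀, yqL x₀) : Cm q × Cm r),
      HasFDerivAt (fun b => g (et p.1 + eyL b)) (0 : Cm r →L[ℂ] H) p.2 := by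
    filter_upwards [h0.eventually hg, h0.eventually hv] with p h2 h3
    have h4 : HasFDerivAt (fun b : Cm r => (et p.1 + eyL b : Cm (q + r))) eyL p.2 :=
      (eyL.hasFDerivAt).const_add _
    have h5 := HasFDerivAt.comp p.2 (g := g) h2.hasFDerivAt h4
    have h6 : (fderiv ℂ g (et p.1 + eyL p.2)).comp (eyL : Cm r →L[ℂ] Cm (q + r)) = 0 := by
      ext1 y
      rw [ContinuousLinearMap.comp_apply, eyL_eq_sum y, map_sum]
      refine Finset.sum_eq_zero fun a _ => ?_
      rw [map_smul, h3 a, smul_zero]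
    rw [← h6]
    exact h5
  have h2 := const_snd (G := fun p : Cm q × Cm r => g (et p.1 + eyL p.2)) h1
  have h3 : Tendsto (fun x : Cm (q + r) => (tq x, yqL x)) (𝓝 x₀) (𝓝 (tq x₀, yqL x₀)) := by
    have h4 : Continuous (fun x : Cm (q + r) => (tqL x, yqL x)) := by fun_prop
    exact h4.continuousAt
  filter_upwards [h3.eventually h2] with x hx
  have h5 : g (et (tq x) + eyL (yqL x)) = g (et (tq x) + eyL (yqL x₀)) := hx
  rw [← split_ty] at h5
  exact h5

/-- exchange of derivatives -/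
lemma fderiv_swap {V H : Type*} [NormedAddCommGroup V] [NormedSpace ℂ V] [NormedAddCommGroup H]
    [NormedSpace ℂ H] {g : V → H} {x : V} (hg : ContDiffAt ℂ ω g x) (η ζ : V) :
    fderiv ℂ (fun x => fderiv ℂ g x η) x ζ = fderiv ℂ (fderiv ℂ g) x η ζ := by
  have h1 : DifferentiableAt ℂ (fderiv ℂ g) x :=
    (hg.fderiv_right (m := ω) (by simp)).differentiableAt (by simp)
  have h2 : HasFDerivAt (fun x => fderiv ℂ g x η)
      ((ContinuousLinearMap.apply ℂ H η).comp (fderiv ℂ (fderiv ℂ g) x)) x :=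
    (ContinuousLinearMap.apply ℂ H η).hasFDerivAt.comp x h1.hasFDerivAt
  rw [h2.fderiv]
  show fderiv ℂ (fderiv ℂ g) x ζ η = fderiv ℂ (fderiv ℂ g) x η ζ
  exact hg.isSymmSndFDerivAt_of_omega ζ η

end Vale.Agent.P284.H286
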